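import Claimed.Agent.R252.Sheet.Defs

/-!
# ROW 252, unit SHEET, file 2: GOOD FUNCTIONS (class-free analysis).   CONTRACT      (architect helper169; prefix `sh2_`)

PAPER-FREE.   Statements are frozen (defects: message to helper169).   Provers replace the `sorry`s IN PLACE, helper lemmas directly above, prefix `sh2_`.   Statements of `R252/Remez/*` (helper78, sorry-free) are black boxes.
s1 one variable: dilations, measure form.      s2 the unit cube (`rmz_slicing`).      s3 boxes: rescaling (`rmz_box_vol`), derivatives along lines.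
s4 the exit `sh2_exit` (conclusion `sh2Bd`).
LEAVES: L-252-SH2-A1 (s1), A2 (s2), A3 (s3), A4 (s4).
-/

set_option autoImplicit false

namespace Claimed.Agent.R252

open Polynomial MeasureTheory

noncomputable section

/-! ## 1. One variable -/

/-- dilations, NO smoothness hypothesis (induction on `j`: `iteratedDeriv_succ`, `deriv_comp_mul_left`, `deriv_const_mul_field`; all `c`, also `c = 0`) -/
theorem sh2_iteratedDeriv_dilate (h : ℝ → ℝ) (c : ℝ) (j : ℕ) (t : ℝ) :
    iteratedDeriv j (fun s : ℝ => h (c * s)) t = c ^ j * iteratedDeriv j h (c * t) := by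
  induction j generalizing t with
  | zero => simp
  | succ j ih =>
    have e : iteratedDeriv j (fun s : ℝ => h (c * s)) = fun t => c ^ j * iteratedDeriv j h (c * t) := funext ih
    rw [iteratedDeriv_succ, e, deriv_const_mul_field, deriv_comp_mul_left, iteratedDeriv_succ, smul_eq_mul, pow_succ]
    ring

theorem sh2_good1_nonneg {E : Set ℝ} {θ M : ℝ} {h : ℝ → ℝ} (hθ : 0 < θ) (hvol : ENNReal.ofReal θ ≤ volume E) (hM : ∀ t ∈ E, |h t| ≤ M) : 0 ≤ M := by
  have hne : E.Nonempty := by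
    by_contra hcon
    rw [Set.not_nonempty_iff_eq_empty] at hcon
    rw [hcon, measure_empty, nonpos_iff_eq_zero, ENNReal.ofReal_eq_zero] at hvol
    linarith
  obtain ⟨t, ht⟩ := hne
  exact (abs_nonneg _).trans (hM t ht)

theorem sh2_good1_mono {k p q q' : ℕ} {C C' : ℝ} (hq : q' ≤ q) (hC : C ≤ C') {h : ℝ → ℝ} (hg : sh2Good1 k p q C h) : sh2Good1 k p q' C' h := by
  intro E θ M hθ hE hvol hM j hj t ht
  have hM0 : 0 ≤ M := sh2_good1_nonneg (by positivity) hvol hM
  refine (hg E θ M hθ hE hvol hM j (hj.trans hq) t ht).trans ?_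
  have h1 : 0 ≤ (((k : ℝ) + 1) / θ) ^ p := by positivity
  exact mul_le_mul_of_nonneg_right (mul_le_mul_of_nonneg_right hC h1) hM0

/-- **Remez, one variable, measure form** (`E` ANY subset of `[-1,1]` of outer measure `≥ 2 θ`): the definition -/
theorem sh2_good1_meas {k p q : ℕ} {C : ℝ} {h : ℝ → ℝ} (hg : sh2Good1 k p q C h) (θ M : ℝ) (hθ : 0 < θ) (E : Set ℝ) (hE : E ⊆ Set.Icc (-1) 1)
    (hvol : ENNReal.ofReal (2 * θ) ≤ volume E) (hM : ∀ t ∈ E, |h t| ≤ M) (j : ℕ) (hj : j ≤ q) (t : ℝ) (ht : t ∈ Set.Icc (-1 : ℝ) 1) :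
    |iteratedDeriv j h t| ≤ C * (((k : ℝ) + 1) / θ) ^ p * M :=
  hg E θ M hθ hE hvol hM j hj t ht

/-- derivatives from the supremum (`sh2_good1_meas`, `E = [-1,1]`, `θ = 1`) -/
theorem sh2_good1_sup {k p q : ℕ} {C : ℝ} {h : ℝ → ℝ} (hg : sh2Good1 k p q C h) (B : ℝ) (hB : ∀ t ∈ Set.Icc (-1 : ℝ) 1, |h t| ≤ B)
    (j : ℕ) (hj : j ≤ q) (t : ℝ) (ht : t ∈ Set.Icc (-1 : ℝ) 1) : |iteratedDeriv j h t| ≤ C * ((k : ℝ) + 1) ^ p * B := by
  have := sh2_good1_meas hg 1 B one_pos (Set.Icc (-1) 1) (Set.Subset.refl _) (by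
    rw [Real.volume_Icc]
    exact ENNReal.ofReal_le_ofReal (by norm_num)) hB j hj t ht
  rwa [div_one] at this

/-- translations and dilations, NO smoothness hypothesis (`sh2_iteratedDeriv_dilate` for `u ↦ f (t0 + u)`, `iteratedDeriv_comp_const_add`) -/
theorem sh2_iteratedDeriv_affine (f : ℝ → ℝ) (t0 r : ℝ) (j : ℕ) (s : ℝ) :
    iteratedDeriv j (fun s : ℝ => f (t0 + r * s)) s = r ^ j * iteratedDeriv j f (t0 + r * s) := by
  rw [sh2_iteratedDeriv_dilate (fun u : ℝ => f (t0 + u)) r j s, iteratedDeriv_comp_const_add]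

/-- **Remez on an interval `[t0 - r, t0 + r]`, all derivatives up to the end points** (the preimage of `E` under `s ↦ t0 + r s`; `sh2_iteratedDeriv_affine` at `s = (t - t0)/r`) -/
theorem sh2_good1_interval {k p q : ℕ} {C : ℝ} (f : ℝ → ℝ) (t0 r : ℝ) (hr : 0 < r) (hg : sh2Good1 k p q C fun s : ℝ => f (t0 + r * s)) (θ M : ℝ)
    (hθ : 0 < θ) (E : Set ℝ) (hE : E ⊆ Set.Icc (t0 - r) (t0 + r)) (hvol : ENNReal.ofReal (θ * (2 * r)) ≤ volume E) (hM : ∀ t ∈ E, |f t| ≤ M)
    (j : ℕ) (hj : j ≤ q) (t : ℝ) (ht : t ∈ Set.Icc (t0 - r) (t0 + r)) : |iteratedDeriv j f t| ≤ C * (((k : ℝ) + 1) / θ) ^ p * M / r ^ j := by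
  have hback : ∀ u : ℝ, t0 + r * ((u - t0) / r) = u := fun u => by field_simp; ring
  have hin : ∀ u ∈ Set.Icc (t0 - r) (t0 + r), (u - t0) / r ∈ Set.Icc (-1 : ℝ) 1 := by
    intro u hu
    constructor
    · rw [le_div_iff₀ hr]; linarith [hu.1]
    · rw [div_le_iff₀ hr]; linarith [hu.2]
  obtain ⟨E', hE'⟩ : ∃ E' : Set ℝ, E' = (fun s => r * s) ⁻¹' ((fun y => t0 + y) ⁻¹' E) := ⟨_, rfl⟩
  have hv : volume E' = ENNReal.ofReal |r⁻¹| * volume E := by
    rw [hE', Real.volume_preimage_mul_left hr.ne', measure_preimage_add]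
  have hmem : ∀ s, s ∈ E' ↔ t0 + r * s ∈ E := by
    intro s
    rw [hE']
    rfl
  have := hg E' θ M hθ
    (by
      intro s hs
      have h1 := hE ((hmem s).1 hs)
      constructor
      · by_contra hcon
        push Not at hcon
        have := mul_lt_mul_of_pos_left hcon hr
        linarith [h1.1]
      · by_contra hcon
        push Not at hcon
        have := mul_lt_mul_of_pos_left hcon hr
        linarith [h1.2])
    (by
      rw [hv, abs_of_pos (inv_pos.2 hr)]
      calc ENNReal.ofReal (2 * θ) = ENNReal.ofReal r⁻¹ * ENNReal.ofReal (θ * (2 * r)) := by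
            rw [← ENNReal.ofReal_mul (inv_pos.2 hr).le]
            congr 1
            field_simp
        _ ≤ _ := mul_le_mul' le_rfl hvol)
    (fun s hs => hM _ ((hmem s).1 hs)) j hj ((t - t0) / r) (hin t ht)
  rw [sh2_iteratedDeriv_affine, hback, abs_mul, abs_of_pos (pow_pos hr j)] at this
  rw [le_div_iff₀ (pow_pos hr j)]
  linarith

/-- the same on `[0,1]` (`sh2_good1_interval` with `t0 = r = 1/2`, `j = 0`) -/
theorem sh2_good1_unit {k p q : ℕ} {C : ℝ} {h : ℝ → ℝ} (hg : sh2Good1 k p q C h) (θ M : ℝ) (hθ : 0 < θ) (E : Set ℝ) (hE : E ⊆ Set.Icc 0 1)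
    (hvol : ENNReal.ofReal θ ≤ volume E) (hM : ∀ t ∈ E, |h (2 * t - 1)| ≤ M) (t : ℝ) (ht : t ∈ Set.Icc (0 : ℝ) 1) :
    |h (2 * t - 1)| ≤ C * (((k : ℝ) + 1) / θ) ^ p * M := by
  have e : (fun s : ℝ => (fun u : ℝ => h (2 * u - 1)) (1 / 2 + 1 / 2 * s)) = h := by
    funext s
    show h (2 * (1 / 2 + 1 / 2 * s) - 1) = h s
    congr 1
    ring
  have := sh2_good1_interval (k := k) (p := p) (q := q) (C := C) (fun u : ℝ => h (2 * u - 1)) (1 / 2) (1 / 2) (by norm_num) (by rw [e]; exact hg) θ M hθ E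
    (by
      intro s hs
      have := hE hs
      constructor <;> linarith [this.1, this.2])
    (by
      rw [show θ * (2 * (1 / 2 : ℝ)) = θ by ring]
      exact hvol) hM 0 (Nat.zero_le _) t ⟨by linarith [ht.1], by linarith [ht.2]⟩
  simpa using this

/-! ## 2. The unit cube -/

/-- the constant of the Remez inequality for good functions of `n` variables -/
def sh2K (n k p : ℕ) (C θ : ℝ) : ℝ := ∏ j ∈ Finset.range n, C * (((k : ℝ) + 1) / (θ / 2 ^ (j + 1))) ^ p

theorem sh2_K_eqns_cite : True := by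
  have := @sh2K.eq_1
  trivial

theorem sh2_K_nonneg (n k p : ℕ) (C θ : ℝ) (hC : 0 ≤ C) (hθ : 0 < θ) : 0 ≤ sh2K n k p C θ := by
  unfold sh2K
  refine Finset.prod_nonneg fun j _ => mul_nonneg hC (pow_nonneg ?_ _)
  positivity

/-- closed form -/
theorem sh2_K_le (n k p : ℕ) (C θ : ℝ) (hC : 0 ≤ C) (hθ : 0 < θ) : sh2K n k p C θ ≤ (C * (((k : ℝ) + 1) * 2 ^ n) ^ p) ^ n * θ⁻¹ ^ (p * n) := by
  unfold sh2K
  have h1 : ∀ j ∈ Finset.range n, C * (((k : ℝ) + 1) / (θ / 2 ^ (j + 1))) ^ p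
      ≤ C * (((k : ℝ) + 1) * 2 ^ n) ^ p * θ⁻¹ ^ p := by
    intro j hj
    have hj' : j + 1 ≤ n := Finset.mem_range.mp hj
    have e : ((k : ℝ) + 1) / (θ / 2 ^ (j + 1)) = ((k : ℝ) + 1) * 2 ^ (j + 1) * θ⁻¹ := by
      field_simp
    rw [e, mul_assoc C, ← mul_pow]
    refine mul_le_mul_of_nonneg_left (pow_le_pow_left₀ (by positivity) ?_ _) hC
    have h2 : (2 : ℝ) ^ (j + 1) ≤ 2 ^ n := pow_le_pow_right₀ (by norm_num) hj'
    gcongr
  refine (Finset.prod_le_prod (fun j _ => mul_nonneg hC (pow_nonneg (by positivity) _)) h1).trans ?_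
  rw [Finset.prod_const, Finset.card_range, mul_pow, ← pow_mul]

/-- restriction to a segment parallel to an axis, normalised (`x₀ = update x i (1/2)`, `v = Pi.single i (1/2)`) -/
theorem sh2_good_axis (n k p q : ℕ) (C : ℝ) (F : (Fin n → ℝ) → ℝ) (hF : sh2Good k p q C 0 1 F) (i : Fin n) (x : Fin n → ℝ)
    (hx : x ∈ Set.Icc (0 : Fin n → ℝ) 1) : sh2Good1 k p q C fun s : ℝ => F (Function.update x i ((1 + s) / 2)) := by
  have e : ∀ s : ℝ, Function.update x i ((1 + s) / 2)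
      = Function.update x i (1 / 2) + s • (Pi.single i (1 / 2) : Fin n → ℝ) := by
    intro s
    ext j
    by_cases hj : j = i
    · subst hj
      simp only [Function.update_self, Pi.add_apply, Pi.smul_apply, Pi.single_eq_same, smul_eq_mul]
      ring
    · simp [Function.update_of_ne hj, Pi.single_eq_of_ne hj]
  have h := hF (Function.update x i (1 / 2)) (Pi.single i (1 / 2)) (by
    intro s hs
    rw [← e s]
    constructor
    · intro j
      by_cases hj : j = i
      · subst hj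
        simp only [Function.update_self, Pi.zero_apply]
        linarith [hs.1]
      · rw [Function.update_of_ne hj]; exact hx.1 j
    · intro j
      by_cases hj : j = i
      · subst hj
        simp only [Function.update_self, Pi.one_apply]
        linarith [hs.2]
      · rw [Function.update_of_ne hj]; exact hx.2 j)
  simpa only [e] using h

/-- **Remez on the unit cube**: `rmz_slicing` with `A θ = C ((k+1)/θ)^p`; its hypothesis is `sh2_good_axis` + `sh2_good1_unit` (`(1 + (2 t - 1))/2 = t`) -/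
theorem sh2_cube (n k p q : ℕ) (C : ℝ) (F : (Fin n → ℝ) → ℝ) (hFm : Measurable F) (hF : sh2Good k p q C 0 1 F) (θ M : ℝ) (hθ : 0 < θ)
    (E : Set (Fin n → ℝ)) (hE : E ⊆ Set.Icc 0 1) (hvol : ENNReal.ofReal θ ≤ volume E) (hM : ∀ x ∈ E, |F x| ≤ M) :
    ∀ x ∈ Set.Icc (0 : Fin n → ℝ) 1, |F x| ≤ sh2K n k p C θ * M := by
  have hvol' : ENNReal.ofReal θ ≤ volume {x : Fin n → ℝ | x ∈ Set.Icc (0 : Fin n → ℝ) 1 ∧ |F x| ≤ M} :=
    hvol.trans (measure_mono fun x hx => ⟨hE hx, hM x hx⟩)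
  refine rmz_slicing n F hFm (fun θ => C * (((k : ℝ) + 1) / θ) ^ p) ?_ θ M hθ hvol'
  intro i x θ' e hx hθ' hv t ht
  have hg := sh2_good_axis n k p q C F hF i x hx
  have e1 : ∀ t : ℝ, (1 + (2 * t - 1)) / 2 = t := fun t => by ring
  have h := sh2_good1_unit hg θ' e hθ' {t : ℝ | t ∈ Set.Icc (0 : ℝ) 1 ∧ |F (Function.update x i t)| ≤ e}
    (fun t ht => ht.1) hv (by
      intro t ht
      simp only [e1]
      exact ht.2) t ht
  simpa only [e1] using h

/-! ## 3. Boxes -/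

/-- goodness is invariant under the normalisation of the box (`a + (b-a)(x + s v) = (a + (b-a) x) + s ((b-a) v)`) -/
theorem sh2_good_rescale {n : ℕ} (k p q : ℕ) (C : ℝ) (a b : Fin n → ℝ) (hab : ∀ i, a i < b i) (F : (Fin n → ℝ) → ℝ) (hF : sh2Good k p q C a b F) :
    sh2Good k p q C 0 1 fun s : Fin n → ℝ => F fun i => a i + (b i - a i) * s i := by
  intro x v hxv
  have hfun : (fun s : ℝ => F fun i => a i + (b i - a i) * (x + s • v) i) =
      fun s : ℝ => F ((fun i => a i + (b i - a i) * x i) + s • fun i => (b i - a i) * v i) := by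
    funext s
    congr 1
    funext i
    simp only [Pi.add_apply, Pi.smul_apply, smul_eq_mul]
    ring
  show sh2Good1 k p q C (fun s : ℝ => F fun i => a i + (b i - a i) * (x + s • v) i)
  rw [hfun]
  refine hF _ _ fun s hs => ?_
  have h1 := hxv s hs
  rw [Set.mem_Icc, Pi.le_def, Pi.le_def] at h1 ⊢
  refine ⟨fun i => ?_, fun i => ?_⟩
  · have h2 := h1.1 i
    have h3 := sub_pos.2 (hab i)
    simp only [Pi.zero_apply, Pi.add_apply, Pi.smul_apply, smul_eq_mul] at h2 ⊢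
    nlinarith [mul_nonneg h3.le h2]
  · have h2 := h1.2 i
    have h3 := sub_pos.2 (hab i)
    simp only [Pi.one_apply, Pi.add_apply, Pi.smul_apply, smul_eq_mul] at h2 ⊢
    nlinarith [mul_le_mul_of_nonneg_left h2 h3.le]

/-- **Remez on a box**, ANY `E` (`sh2_cube` for the rescaled function, `rmz_box_vol`; compare the proof of `rmz_box`) -/
theorem sh2_box {n : ℕ} (k p q : ℕ) (C : ℝ) (a b : Fin n → ℝ) (hab : ∀ i, a i < b i) (F : (Fin n → ℝ) → ℝ) (hFm : Measurable F)
    (hF : sh2Good k p q C a b F) (θ M : ℝ) (hθ : 0 < θ) (E : Set (Fin n → ℝ)) (hE : E ⊆ Set.Icc a b)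
    (hvol : ENNReal.ofReal θ * volume (Set.Icc a b) ≤ volume E) (hM : ∀ x ∈ E, |F x| ≤ M) : ∀ x ∈ Set.Icc a b, |F x| ≤ sh2K n k p C θ * M := by
  have hmeas : Measurable fun s : Fin n → ℝ => F fun i => a i + (b i - a i) * s i :=
    hFm.comp (measurable_pi_lambda _ fun i => measurable_const.add ((measurable_pi_apply i).const_mul _))
  have hcube := sh2_cube n k p q C (fun s : Fin n → ℝ => F fun i => a i + (b i - a i) * s i) hmeas
    (sh2_good_rescale k p q C a b hab F hF) θ M hθ {s : Fin n → ℝ | (fun i => a i + (b i - a i) * s i) ∈ E} ?_ ?_ ?_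
  · intro x hx
    have h1 := hx
    rw [Set.mem_Icc, Pi.le_def, Pi.le_def] at h1
    have hs : (fun i => (x i - a i) / (b i - a i)) ∈ Set.Icc (0 : Fin n → ℝ) 1 := by
      rw [Set.mem_Icc, Pi.le_def, Pi.le_def]
      refine ⟨fun i => ?_, fun i => ?_⟩
      · exact div_nonneg (sub_nonneg.2 (h1.1 i)) (sub_pos.2 (hab i)).le
      · show (x i - a i) / (b i - a i) ≤ 1
        rw [div_le_one (sub_pos.2 (hab i))]
        linarith [h1.2 i]
    have h2 := hcube _ hs
    have h3 : (fun i => a i + (b i - a i) * ((x i - a i) / (b i - a i))) = x := by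
      funext i
      rw [mul_div_cancel₀ _ (sub_pos.2 (hab i)).ne']
      ring
    simp only [h3] at h2
    exact h2
  · intro s hs
    have h1 := hE hs
    rw [Set.mem_Icc, Pi.le_def, Pi.le_def] at h1 ⊢
    refine ⟨fun i => ?_, fun i => ?_⟩
    · have h2 := h1.1 i
      have h3 := sub_pos.2 (hab i)
      simp only [Pi.zero_apply]
      by_contra hneg
      push Not at hneg
      have := mul_neg_of_pos_of_neg h3 hneg
      linarith
    · have h2 := h1.2 i
      have h3 := sub_pos.2 (hab i)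
      simp only [Pi.one_apply]
      by_contra hneg
      push Not at hneg
      have := mul_lt_mul_of_pos_left hneg h3
      linarith
  · rw [rmz_box_vol a b hab E, mul_comm] at hvol
    have hpos : 0 < ∏ i, (b i - a i) := Finset.prod_pos fun i _ => sub_pos.2 (hab i)
    have hv : volume (Set.Icc a b) = ENNReal.ofReal (∏ i, (b i - a i)) := by
      rw [Real.volume_Icc_pi, ENNReal.ofReal_prod_of_nonneg (fun i _ => (sub_pos.2 (hab i)).le)]
    exact (ENNReal.mul_le_mul_iff_right (by rw [hv]; exact (ENNReal.ofReal_pos.2 hpos).ne') (by rw [hv]; exact ENNReal.ofReal_ne_top)).1 hvol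
  · intro s hs
    exact hM _ hs

/-- **derivatives along all lines** through the points of the half box; `lam` = size of the direction in units of the half sides.
PLAN: `v = (2 lam) • v̂`, `|v̂ i| ≤ r i / 2`; `h s = F (x + s • v̂)` is good (the segment stays in the box), `|h| ≤ B` on `[-1,1]`; `sh2_good1_sup` at `t = 0`, `sh2_iteratedDeriv_dilate` with `c = 2 lam`. -/
theorem sh2_box_deriv {n : ℕ} (k p q : ℕ) (C : ℝ) (a b : Fin n → ℝ) (F : (Fin n → ℝ) → ℝ) (hF : sh2Good k p q C a b F) (B : ℝ)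
    (hB : ∀ x ∈ Set.Icc a b, |F x| ≤ B) (x : Fin n → ℝ) (hx : x ∈ sh2Box a b (1 / 2)) (v : Fin n → ℝ) (lam : ℝ) (hlam : 0 < lam)
    (hv : ∀ i, |v i| ≤ lam * ((b i - a i) / 2)) (j : ℕ) (hj : j ≤ q) :
    |iteratedDeriv j (fun s : ℝ => F (x + s • v)) 0| ≤ C * ((k : ℝ) + 1) ^ p * B * (2 * lam) ^ j := by
  have h2l : 0 < 2 * lam := by positivity
  have hseg : ∀ s ∈ Set.Icc (-1 : ℝ) 1, x + s • ((2 * lam)⁻¹ • v) ∈ Set.Icc a b := by
    intro s hs
    rw [Set.mem_Icc, Pi.le_def, Pi.le_def]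
    have key : ∀ i, |s * ((2 * lam)⁻¹ * v i)| ≤ (b i - a i) / 4 := by
      intro i
      have h1 : |s| ≤ 1 := abs_le.2 hs
      have h2 : |(2 * lam)⁻¹ * v i| ≤ (b i - a i) / 4 := by
        rw [abs_mul, abs_of_pos (inv_pos.2 h2l), inv_mul_le_iff₀ h2l]
        calc |v i| ≤ lam * ((b i - a i) / 2) := hv i
          _ = 2 * lam * ((b i - a i) / 4) := by ring
      rw [abs_mul]
      calc |s| * |(2 * lam)⁻¹ * v i| ≤ 1 * |(2 * lam)⁻¹ * v i| := mul_le_mul_of_nonneg_right h1 (abs_nonneg _)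
        _ ≤ (b i - a i) / 4 := by rw [one_mul]; exact h2
    refine ⟨fun i => ?_, fun i => ?_⟩
    · have h1 := abs_le.1 (key i)
      have h2 := abs_le.1 (hx i)
      simp only [Pi.add_apply, Pi.smul_apply, smul_eq_mul]
      linarith [h1.1, h2.1]
    · have h1 := abs_le.1 (key i)
      have h2 := abs_le.1 (hx i)
      simp only [Pi.add_apply, Pi.smul_apply, smul_eq_mul]
      linarith [h1.2, h2.2]
  have hg := hF x ((2 * lam)⁻¹ • v) hseg
  have hsup := sh2_good1_sup hg B (fun t ht => hB _ (hseg t ht)) j hj 0 (by constructor <;> norm_num)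
  have hfun : (fun s : ℝ => F (x + s • v)) = fun s : ℝ => (fun u : ℝ => F (x + u • ((2 * lam)⁻¹ • v))) (2 * lam * s) := by
    funext s
    show F (x + s • v) = F (x + (2 * lam * s) • ((2 * lam)⁻¹ • v))
    rw [smul_smul]
    congr 3
    field_simp
  rw [hfun, sh2_iteratedDeriv_dilate (fun u : ℝ => F (x + u • ((2 * lam)⁻¹ • v))) (2 * lam) j 0, mul_zero, abs_mul,
    abs_of_pos (pow_pos h2l j), mul_comm]
  exact mul_le_mul_of_nonneg_right hsup (pow_pos h2l j).le

/-! ## 4. The exit of the abstract layer -/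

/-- **the conclusion of the kit**: `F` on the box, its derivatives of order `≤ q` along all segments inside the box (in the parameter of the segment), and along ALL lines through the points of the half box
(`lam` = size of the direction in units of the half sides) are bounded by `B` -/
def sh2Bd {n : ℕ} (q : ℕ) (a b : Fin n → ℝ) (F : (Fin n → ℝ) → ℝ) (B : ℝ) : Prop :=
  (∀ x ∈ Set.Icc a b, |F x| ≤ B) ∧
  (∀ x v : Fin n → ℝ, (∀ s ∈ Set.Icc (-1 : ℝ) 1, x + s • v ∈ Set.Icc a b) → ∀ j ≤ q, ∀ t ∈ Set.Icc (-1 : ℝ) 1,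
    |iteratedDeriv j (fun s : ℝ => F (x + s • v)) t| ≤ B) ∧
  ∀ x ∈ sh2Box a b (1 / 2), ∀ (v : Fin n → ℝ) (lam : ℝ), 0 < lam → (∀ i, |v i| ≤ lam * ((b i - a i) / 2)) → ∀ j ≤ q,
    |iteratedDeriv j (fun s : ℝ => F (x + s • v)) 0| ≤ B * lam ^ j

theorem sh2_Bd_eqns_cite : True := by
  have := @sh2Bd.eq_1
  trivial

theorem sh2_Bd_mono {n : ℕ} {q q' : ℕ} (hq : q' ≤ q) {a b : Fin n → ℝ} {F : (Fin n → ℝ) → ℝ} {B B' : ℝ} (hB : B ≤ B') (h : sh2Bd q a b F B) :
    sh2Bd q' a b F B' := by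
  obtain ⟨h1, h2, h3⟩ := h
  refine ⟨fun x hx => (h1 x hx).trans hB, fun x v hs j hj t ht => (h2 x v hs j (hj.trans hq) t ht).trans hB, ?_⟩
  intro x hx v lam hlam hv j hj
  exact (h3 x hx v lam hlam hv j (hj.trans hq)).trans (mul_le_mul_of_nonneg_right hB (pow_nonneg hlam.le j))

/-- **EXIT of the abstract layer** (bookkeeping of constants, once for all classes).
PLAN: `C₁ = C kap^p ≥ 1`.   `S := sh2K n k p C₁ θ * M` bounds `F` on the box (`sh2_box`), `S ≤ (C ((k+1) 2^n)^p)^n (kap/θ)^(p n) M` (`sh2_K_le`, `(C kap^p X)^n = (C X)^n kap^(p n)`);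
segments: `sh2_good1_sup` gives `C₁ (k+1)^p S`; half box: `sh2_box_deriv` gives `C₁ (k+1)^p S (2 lam)^j`, `2^j ≤ 2^q`.   `kap^p ≤ (kap/θ)^p` since `θ ≤ 1`.
`p' = p n + p`, `C' = 2^q C (k+1)^p (C ((k+1) 2^n)^p)^n`;   `0 ≤ M` because `E` is not empty (`hvol`, the box has positive volume). -/
theorem sh2_exit (n k p q : ℕ) (C : ℝ) (hC : 1 ≤ C) : ∃ (p' : ℕ) (C' : ℝ), 1 ≤ C' ∧
    ∀ (kap : ℝ) (a b : Fin n → ℝ) (F : (Fin n → ℝ) → ℝ) (θ M : ℝ) (E : Set (Fin n → ℝ)), 1 ≤ kap → (∀ i, a i < b i) → Measurable F →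
      sh2Good k p q (C * kap ^ p) a b F → 0 < θ → θ ≤ 1 → E ⊆ Set.Icc a b → ENNReal.ofReal θ * volume (Set.Icc a b) ≤ volume E →
      (∀ x ∈ E, |F x| ≤ M) → sh2Bd q a b F (C' * (kap / θ) ^ p' * M) := by
  have hC0 : (0 : ℝ) ≤ C := zero_le_one.trans hC
  have hk1 : (1 : ℝ) ≤ (k : ℝ) + 1 := by
    have : (0 : ℝ) ≤ (k : ℝ) := Nat.cast_nonneg k
    linarith
  have hkp : (1 : ℝ) ≤ ((k : ℝ) + 1) ^ p := one_le_pow₀ hk1
  have h2n : (1 : ℝ) ≤ (2 : ℝ) ^ n := one_le_pow₀ (by norm_num)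
  have h2q : (1 : ℝ) ≤ (2 : ℝ) ^ q := one_le_pow₀ (by norm_num)
  have hX1 : (1 : ℝ) ≤ (((k : ℝ) + 1) * 2 ^ n) ^ p := one_le_pow₀ (by nlinarith)
  have hY1 : (1 : ℝ) ≤ (C * (((k : ℝ) + 1) * 2 ^ n) ^ p) ^ n := one_le_pow₀ (by nlinarith)
  refine ⟨p * n + p, 2 ^ q * C * ((k : ℝ) + 1) ^ p * (C * (((k : ℝ) + 1) * 2 ^ n) ^ p) ^ n, ?_, ?_⟩
  · have h1 : (1 : ℝ) ≤ 2 ^ q * C := by nlinarith
    have h2 : (1 : ℝ) ≤ 2 ^ q * C * ((k : ℝ) + 1) ^ p := by nlinarith
    nlinarith
  intro kap a b F θ M E hkap hab hFm hF hθ hθ1 hE hvol hM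
  set X : ℝ := (((k : ℝ) + 1) * 2 ^ n) ^ p with hX
  set Y : ℝ := (C * X) ^ n with hY
  set K : ℝ := ((k : ℝ) + 1) ^ p with hK
  have hkap0 : (0 : ℝ) < kap := zero_lt_one.trans_le hkap
  have hkp1 : (1 : ℝ) ≤ kap ^ p := one_le_pow₀ hkap
  have hC1 : (0 : ℝ) ≤ C * kap ^ p := by positivity
  -- `E` is not empty
  have hM0 : 0 ≤ M := by
    have hpos : 0 < volume E := by
      refine lt_of_lt_of_le ?_ hvol
      refine ENNReal.mul_pos (by simpa using hθ) ?_
      rw [Real.volume_Icc_pi]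
      refine Finset.prod_ne_zero_iff.2 fun i _ => ?_
      simpa using hab i
    obtain ⟨x, hx⟩ : E.Nonempty := by
      by_contra hne
      rw [Set.not_nonempty_iff_eq_empty] at hne
      simp [hne] at hpos
    exact (abs_nonneg _).trans (hM x hx)
  have hr1 : (1 : ℝ) ≤ kap / θ := by
    rw [le_div_iff₀ hθ]
    linarith
  have hr0 : (0 : ℝ) < kap / θ := zero_lt_one.trans_le hr1
  have hrp : kap ^ p ≤ (kap / θ) ^ p := by
    refine pow_le_pow_left₀ hkap0.le ?_ p
    rw [le_div_iff₀ hθ]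
    nlinarith
  have hrp1 : (1 : ℝ) ≤ (kap / θ) ^ p := one_le_pow₀ hr1
  set R : ℝ := (kap / θ) ^ (p * n) with hR
  set Rp : ℝ := (kap / θ) ^ p with hRp
  have hR0 : 0 ≤ R := by positivity
  have hpow : (kap / θ) ^ (p * n + p) = R * Rp := pow_add _ _ _
  set S : ℝ := sh2K n k p (C * kap ^ p) θ * M with hS
  have hSle : S ≤ Y * R * M := by
    refine mul_le_mul_of_nonneg_right ?_ hM0
    refine (sh2_K_le n k p (C * kap ^ p) θ hC1 hθ).trans (le_of_eq ?_)
    rw [hY, hR, div_eq_mul_inv, mul_pow kap, pow_mul kap p n, mul_pow, mul_pow, mul_pow C X n]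
    ring
  have hS0 : 0 ≤ S := mul_nonneg (sh2_K_nonneg n k p _ θ hC1 hθ) hM0
  have hbox := sh2_box k p q (C * kap ^ p) a b hab F hFm hF θ M hθ E hE hvol hM
  have hY0 : 0 ≤ Y := zero_le_one.trans hY1
  have hYRM : 0 ≤ Y * R * M := by positivity
  have hK0 : 0 ≤ K := zero_le_one.trans hkp
  -- the middle quantity
  have hmid : C * kap ^ p * K * S ≤ C * K * Y * (R * Rp) * M := by
    calc C * kap ^ p * K * S ≤ C * Rp * K * (Y * R * M) := by
          refine mul_le_mul ?_ hSle hS0 (by positivity)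
          refine mul_le_mul_of_nonneg_right ?_ hK0
          exact mul_le_mul_of_nonneg_left hrp hC0
      _ = C * K * Y * (R * Rp) * M := by ring
  have hmid0 : 0 ≤ C * K * Y * (R * Rp) * M := by positivity
  have hfin : C * K * Y * (R * Rp) * M ≤ 2 ^ q * C * K * Y * (R * Rp) * M := by
    have : 2 ^ q * C * K * Y * (R * Rp) * M = 2 ^ q * (C * K * Y * (R * Rp) * M) := by ring
    rw [this]
    exact le_mul_of_one_le_left hmid0 h2q
  have hSmid : S ≤ C * kap ^ p * K * S := by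
    have : (1 : ℝ) ≤ C * kap ^ p * K := by
      have h1 : (1 : ℝ) ≤ C * kap ^ p := by nlinarith
      nlinarith
    exact le_mul_of_one_le_left hS0 this
  rw [hpow]
  refine ⟨fun x hx => (hbox x hx).trans (hSmid.trans (hmid.trans hfin)), ?_, ?_⟩
  · intro x v hs j hj t ht
    have hg := hF x v hs
    have := sh2_good1_sup hg S (fun t ht => hbox _ (hs t ht)) j hj t ht
    exact this.trans (hmid.trans hfin)
  · intro x hx v lam hlam hv j hj
    have := sh2_box_deriv k p q (C * kap ^ p) a b F hF S hbox x hx v lam hlam hv j hj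
    refine this.trans ?_
    rw [mul_pow, ← mul_assoc]
    refine mul_le_mul_of_nonneg_right ?_ (pow_nonneg hlam.le j)
    have h2j : (2 : ℝ) ^ j ≤ 2 ^ q := pow_le_pow_right₀ (by norm_num) hj
    calc C * kap ^ p * K * S * 2 ^ j ≤ (C * K * Y * (R * Rp) * M) * 2 ^ q :=
          mul_le_mul hmid h2j (by positivity) hmid0
      _ = 2 ^ q * C * K * Y * (R * Rp) * M := by ring

/-- the conclusion on a cube, in terms of the sup norm of the direction (ALL `v`; `v = 0`: the function of `s` is constant) -/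
theorem sh2_Bd_cube {n : ℕ} (q : ℕ) (c : Fin n → ℝ) (r : ℝ) (hr : 0 < r) (F : (Fin n → ℝ) → ℝ) (B : ℝ)
    (h : sh2Bd q (fun i => c i - r) (fun i => c i + r) F B) (x : Fin n → ℝ) (hx : ∀ i, |x i - c i| ≤ r / 2) (v : Fin n → ℝ) (j : ℕ) (hj : j ≤ q) :
    |iteratedDeriv j (fun s : ℝ => F (x + s • v)) 0| ≤ B * (‖v‖ / r) ^ j := by
  obtain ⟨h1, -, h3⟩ := h
  by_cases hv0 : v = 0
  · subst hv0
    have hxI : x ∈ Set.Icc (fun i => c i - r) (fun i => c i + r) := by
      refine ⟨fun i => ?_, fun i => ?_⟩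
      · have := abs_le.1 (hx i)
        show c i - r ≤ x i
        linarith [this.1]
      · have := abs_le.1 (hx i)
        show x i ≤ c i + r
        linarith [this.2]
    rcases Nat.eq_zero_or_pos j with rfl | hj0
    · simpa using h1 x hxI
    · have hfun : (fun s : ℝ => F (x + s • (0 : Fin n → ℝ))) = fun _ : ℝ => F x := by
        funext s
        simp
      rw [hfun, iteratedDeriv_const]
      simp [hj0.ne']
  · have hvn : 0 < ‖v‖ := norm_pos_iff.2 hv0
    refine h3 x ?_ v (‖v‖ / r) (div_pos hvn hr) ?_ j hj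
    · intro i
      have e1 : ((c i - r) + (c i + r)) / 2 = c i := by ring
      have e2 : ((c i + r) - (c i - r)) / 2 = r := by ring
      show |x i - ((c i - r) + (c i + r)) / 2| ≤ 1 / 2 * (((c i + r) - (c i - r)) / 2)
      rw [e1, e2]
      have := hx i
      linarith
    · intro i
      have e2 : ((c i + r) - (c i - r)) / 2 = r := by ring
      rw [e2, div_mul_cancel₀ _ hr.ne']
      exact norm_le_pi_norm v i

end

end Claimed.Agent.R252
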