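import Claimed.Agent.R252.Sheet.Defs
import Claimed.Agent.R252.S6b.SqGen
import Claimed.Agent.R252.S6b.SqKit

/-!
# ROW 252, unit SHEET, file 1: THE CLASS `A + B √Dl / Dl^m` IS GOOD IN ONE VARIABLE.   CONTRACT      (architect helper169; prefix `sh2c_` / `sh2_`)

PAPER-FREE.   `sh2_sheet_good1` is the ONLY thing the rest of the unit uses.   The analysis (iterated Rolle + Lagrange at separated nodes) is the generic jet lemma `k6b_gm` of helper112 (`R252/S6b/SqGen.lean`), a black box here, as is `k6b_weight` (`SqKit`).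
This file: the formal derivatives of `F = A + B Dl^(1/2-m)` for polynomials of ONE variable:   `F^(j) = A^(j) + B_j Dl^(1/2-m-j)`, `B_0 = B`, `B_(j+1) = B_j' Dl + (1/2-m-j) B_j Dl'`, `deg B_j ≤ d + j d`, `A^(j) = 0` for `j > d`;
they are the `iteratedDeriv`s on the open set `{Dl > 0}`;   `k6b_gm (d + 1 + q) (d + (d + 1 + q) d)` on `[a,b] = [-1,1]`.
CORE CONVENTION of the row: the dependence on the slack `kap` is POLYNOMIAL (`k, p, C` depend on `d, q, m` only).
-/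

set_option autoImplicit false

namespace Claimed.Agent.R252

open Polynomial MeasureTheory

noncomputable section

/-! ## 0. Definitions -/

/-- the weight `Dl^(1/2-l)` -/
def sh2c_w (Dl : ℝ[X]) (l : ℕ) (t : ℝ) : ℝ := Real.sqrt (Dl.eval t) / Dl.eval t ^ l

/-- the numerators of the derivatives of `B Dl^(1/2-m)` -/
def sh2c_B (m : ℕ) (B Dl : ℝ[X]) : ℕ → ℝ[X]
  | 0 => B
  | j + 1 => derivative (sh2c_B m B Dl j) * Dl + C (1 / 2 - (m : ℝ) - (j : ℝ)) * sh2c_B m B Dl j * derivative Dl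

/-- the formal derivatives of `A + B Dl^(1/2-m)` -/
def sh2c_G (m : ℕ) (A B Dl : ℝ[X]) (j : ℕ) (t : ℝ) : ℝ := (derivative^[j] A).eval t + (sh2c_B m B Dl j).eval t * sh2c_w Dl (m + j) t

theorem sh2c_eqns_cite : True := by
  have := @sh2c_w.eq_1
  have := @sh2c_B.eq_1
  have := @sh2c_B.eq_2
  have := @sh2c_G.eq_1
  trivial

/-! ## 1. Jets and iterated derivatives -/

/-- a jet on an open set computes the iterated derivatives (induction on `j`: `iteratedDeriv_succ`; `iteratedDeriv j (G 0)` and `G j` coincide near `t`, `Filter.EventuallyEq.deriv_eq`, `HasDerivAt.deriv`) -/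
theorem sh2c_jet_iteratedDeriv {U : Set ℝ} (hU : IsOpen U) {G : ℕ → ℝ → ℝ} (h : ∀ (j : ℕ), ∀ t ∈ U, HasDerivAt (G j) (G (j + 1) t) t) (j : ℕ) :
    ∀ t ∈ U, iteratedDeriv j (G 0) t = G j t := by
  induction j with
  | zero => intro t _; simp
  | succ j ih =>
    intro t ht
    rw [iteratedDeriv_succ]
    have e : iteratedDeriv j (G 0) =ᶠ[nhds t] G j := by
      filter_upwards [hU.mem_nhds ht] with s hs using ih s hs
    rw [e.deriv_eq]
    exact (h j t ht).deriv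

/-! ## 2. The formal calculus -/

theorem sh2c_w_succ (Dl : ℝ[X]) (l : ℕ) (t : ℝ) (h : 0 < Dl.eval t) : sh2c_w Dl l t = Dl.eval t * sh2c_w Dl (l + 1) t := by
  unfold sh2c_w
  rw [pow_succ]
  field_simp

theorem sh2c_w_hasDerivAt (Dl : ℝ[X]) (l : ℕ) (t : ℝ) (h : 0 < Dl.eval t) :
    HasDerivAt (sh2c_w Dl l) ((1 / 2 - (l : ℝ)) * (derivative Dl).eval t * sh2c_w Dl (l + 1) t) t := by
  have hD : HasDerivAt (fun s => Dl.eval s) ((derivative Dl).eval t) t := Dl.hasDerivAt t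
  have hs := hD.sqrt h.ne'
  have hp := hD.pow l
  have hq := hs.div hp (pow_pos h l).ne'
  have hr : Real.sqrt (Dl.eval t) * Real.sqrt (Dl.eval t) = Dl.eval t := Real.mul_self_sqrt h.le
  have hr0 : 0 < Real.sqrt (Dl.eval t) := Real.sqrt_pos.2 h
  refine HasDerivAt.congr_deriv (f := sh2c_w Dl l) hq ?_
  unfold sh2c_w
  simp only [Pi.pow_apply]
  obtain ⟨r, hrdef⟩ : ∃ r, r = Real.sqrt (Dl.eval t) := ⟨_, rfl⟩
  rw [← hrdef] at hr hr0 ⊢
  rw [← hr]
  cases l with
  | zero => simp; field_simp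
  | succ l =>
    simp only [Nat.add_sub_cancel, Nat.cast_add, Nat.cast_one]
    field_simp
    ring

theorem sh2c_G_jet (m : ℕ) (A B Dl : ℝ[X]) (j : ℕ) (t : ℝ) (h : 0 < Dl.eval t) :
    HasDerivAt (sh2c_G m A B Dl j) (sh2c_G m A B Dl (j + 1) t) t := by
  have h1 : HasDerivAt (fun s => (derivative^[j] A).eval s) ((derivative^[j + 1] A).eval t) t := by
    rw [Function.iterate_succ_apply']
    exact (derivative^[j] A).hasDerivAt t
  have h2 : HasDerivAt (fun s => (sh2c_B m B Dl j).eval s) ((derivative (sh2c_B m B Dl j)).eval t) t := (sh2c_B m B Dl j).hasDerivAt t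
  have h3 := sh2c_w_hasDerivAt Dl (m + j) t h
  have h4 := h1.add (h2.mul h3)
  refine HasDerivAt.congr_deriv (f := sh2c_G m A B Dl j) h4 ?_
  show _ = (derivative^[j + 1] A).eval t + (sh2c_B m B Dl (j + 1)).eval t * sh2c_w Dl (m + (j + 1)) t
  rw [sh2c_w_succ Dl (m + j) t h, sh2c_B]
  simp only [eval_add, eval_mul, eval_C, Nat.cast_add]
  rw [show m + (j + 1) = m + j + 1 from rfl]
  ring

theorem sh2c_G_zero (m : ℕ) (A B Dl : ℝ[X]) (t : ℝ) : sh2c_G m A B Dl 0 t = A.eval t + B.eval t * Real.sqrt (Dl.eval t) / Dl.eval t ^ m := by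
  simp [sh2c_G, sh2c_B, sh2c_w, mul_div_assoc]

theorem sh2c_B_natDegree (m d : ℕ) (B Dl : ℝ[X]) (hB : B.natDegree ≤ d) (hD : Dl.natDegree ≤ d) (j : ℕ) : (sh2c_B m B Dl j).natDegree ≤ d + j * d := by
  induction j with
  | zero => simpa [sh2c_B] using hB
  | succ j ih =>
    rw [sh2c_B]
    refine (natDegree_add_le _ _).trans (max_le ?_ ?_)
    · refine natDegree_mul_le.trans ?_
      have := natDegree_derivative_le (sh2c_B m B Dl j)
      have e : d + (j + 1) * d = d + j * d + d := by ring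
      omega
    · refine natDegree_mul_le.trans ?_
      have h1 := natDegree_derivative_le Dl
      have h2 : (C (1 / 2 - (m : ℝ) - (j : ℝ)) * sh2c_B m B Dl j).natDegree ≤ d + j * d := (natDegree_C_mul_le _ _).trans ih
      have e : d + (j + 1) * d = d + j * d + d := by ring
      omega

theorem sh2c_G_top (m d : ℕ) (A B Dl : ℝ[X]) (hA : A.natDegree ≤ d) (j : ℕ) (hj : d < j) (t : ℝ) :
    sh2c_G m A B Dl j t = (sh2c_B m B Dl j).eval t * sh2c_w Dl (m + j) t := by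
  unfold sh2c_G
  rw [Polynomial.iterate_derivative_eq_zero (lt_of_le_of_lt hA hj)]
  simp

/-! ## 3. The class is good -/

/-- **the class is good**, with polynomial dependence on the stability constant `kap` -/
theorem sh2_sheet_good1 (d q m : ℕ) : ∃ (k p : ℕ) (C : ℝ), 1 ≤ C ∧
    ∀ (kap : ℝ) (A B Dl : ℝ[X]) (D0 : ℝ), 1 ≤ kap → A.natDegree ≤ d → B.natDegree ≤ d → Dl.natDegree ≤ d → 0 < D0 →
      (∀ t ∈ Set.Icc (-1 : ℝ) 1, D0 / kap ≤ Dl.eval t ∧ Dl.eval t ≤ kap * D0) →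
      sh2Good1 k p q (C * kap ^ p) fun t : ℝ => A.eval t + B.eval t * Real.sqrt (Dl.eval t) / Dl.eval t ^ m := by
  obtain ⟨mm, hmm⟩ : ∃ mm : ℕ, mm = d + 1 + q := ⟨_, rfl⟩
  obtain ⟨c, hc⟩ := k6b_gm mm (d + mm * d)
  refine ⟨0, c + (2 * (m + mm) + 1), (c : ℝ) + 1, by have : (0 : ℝ) ≤ c := Nat.cast_nonneg c; linarith, ?_⟩
  intro kap A B Dl D0 hkap hA hB hD hD0 hst E θ M hθ hE hvol hM j hj t ht
  have hkap0 : 0 < kap := by linarith
  have hpos : ∀ s ∈ Set.Icc (-1 : ℝ) 1, 0 < Dl.eval s := fun s hs => lt_of_lt_of_le (by positivity) (hst s hs).1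
  have hF : (fun t : ℝ => A.eval t + B.eval t * Real.sqrt (Dl.eval t) / Dl.eval t ^ m) = sh2c_G m A B Dl 0 := by
    funext s
    rw [sh2c_G_zero]
  have hθ1 : θ ≤ 1 := by
    have h1 : volume E ≤ volume (Set.Icc (-1 : ℝ) 1) := measure_mono hE
    rw [Real.volume_Icc] at h1
    have h2 := hvol.trans h1
    rw [ENNReal.ofReal_le_ofReal_iff (by norm_num)] at h2
    linarith
  have hM0 : 0 ≤ M := by
    have hne : E.Nonempty := by
      by_contra hcon
      rw [Set.not_nonempty_iff_eq_empty] at hcon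
      rw [hcon, measure_empty, nonpos_iff_eq_zero, ENNReal.ofReal_eq_zero] at hvol
      linarith
    obtain ⟨s, hs⟩ := hne
    exact (abs_nonneg _).trans (hM s hs)
  have hU : IsOpen {s : ℝ | 0 < Dl.eval s} := isOpen_lt continuous_const Dl.continuous
  have hid : iteratedDeriv j (sh2c_G m A B Dl 0) t = sh2c_G m A B Dl j t :=
    sh2c_jet_iteratedDeriv hU (fun i s hs => sh2c_G_jet m A B Dl i s hs) j t (hpos t ht)
  have key := hc (sh2c_G m A B Dl) (sh2c_B m B Dl mm) (sh2c_w Dl (m + mm)) (-1) 1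
    (√(D0 / kap) / (kap * D0) ^ (m + mm)) (kap ^ (2 * (m + mm) + 1)) θ M E (by norm_num)
    (fun i _ s hs => sh2c_G_jet m A B Dl i s (hpos s hs))
    (sh2c_B_natDegree m d B Dl hB hD mm)
    (k6b_weight (m + mm) kap D0 D0 hkap hD0 (div_le_self hD0.le hkap) (by nlinarith)).1
    (fun s hs => (k6b_weight (m + mm) kap D0 _ hkap hD0 (hst s hs).1 (hst s hs).2).2)
    (fun s _ => sh2c_G_top m d A B Dl hA mm (by omega) s)
    hθ hθ1 hE (by rw [show θ * (1 - (-1 : ℝ)) = 2 * θ by ring]; exact hvol)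
    (fun s hs => by rw [← hF]; exact hM s hs) j (by omega) t ht
  rw [hF, hid]
  have h2 : |sh2c_G m A B Dl j t| ≤ |sh2c_G m A B Dl j t| * (1 - (-1 : ℝ)) ^ j := by
    have : (1 : ℝ) ≤ (1 - (-1 : ℝ)) ^ j := one_le_pow₀ (by norm_num)
    nlinarith [abs_nonneg (sh2c_G m A B Dl j t)]
  refine h2.trans (key.trans ?_)
  have h3 : (1 : ℝ) ≤ 1 / θ := by
    rw [le_div_iff₀ hθ]
    linarith
  have h4 : (1 / θ) ^ c ≤ (1 / θ) ^ (c + (2 * (m + mm) + 1)) := pow_le_pow_right₀ h3 (by omega)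
  have h5 : kap ^ (2 * (m + mm) + 1) ≤ kap ^ (c + (2 * (m + mm) + 1)) := pow_le_pow_right₀ hkap (by omega)
  have h6 : (c : ℝ) ≤ (c : ℝ) + 1 := by linarith
  have h7 : (0 : ℝ) ≤ c := Nat.cast_nonneg c
  simp only [Nat.cast_zero, zero_add]
  refine mul_le_mul_of_nonneg_right ?_ hM0
  calc (c : ℝ) * (1 / θ) ^ c * kap ^ (2 * (m + mm) + 1)
      ≤ ((c : ℝ) + 1) * (1 / θ) ^ (c + (2 * (m + mm) + 1)) * kap ^ (c + (2 * (m + mm) + 1)) := by
        refine mul_le_mul (mul_le_mul h6 h4 (by positivity) (by positivity)) h5 (by positivity) (by positivity)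
    _ = ((c : ℝ) + 1) * kap ^ (c + (2 * (m + mm) + 1)) * (1 / θ) ^ (c + (2 * (m + mm) + 1)) := by ring

end

end Claimed.Agent.R252
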