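import Claimed.Agent.R252.Sheet.AbsContract
import Claimed.Agent.R252.Sheet.OneContract

/-!
# ROW 252, unit SHEET, file 3: THE CLASS `α + β √D / D^m` IN SEVERAL VARIABLES: EXITS.   CONTRACT      (architect helper169; prefix `sh2_`)

PAPER-FREE.   Statements are frozen (defects: message to helper169).   Provers replace the `sorry`s IN PLACE, helper lemmas directly above, prefix `sh2_`.
Black boxes: `R252/Remez/*` (sorry-free), `Sheet/Defs`, `Sheet/AbsContract`, `Sheet/OneContract` (`sh2_sheet_good1`).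
EXITS FOR CONSUMERS:   `sh2_remez` (boxes in `ℝⁿ`: value + derivatives of order `≤ q` from a set of relative measure `θ`, loss `C (kap/θ)^p`),   `sh2_interval` (one variable, derivatives up to the end points),
`sh2_hessian_affine` (derivatives of order `≥ 2` are bounded by the distance to ANY affine function),   `sh2_taylor`,   regularity `sh2_val_contDiffOn`, `sh2_val_measurable`, algebra `sh2_val_sub`, `sh2_val_shift`, ...
LEAVES: L-252-SH2-M1 (s1), M2 (s2), M3 (s3), M4 (s4).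
-/

set_option autoImplicit false

namespace Claimed.Agent.R252

open Polynomial MeasureTheory

noncomputable section

/-! ## 1. Regularity and algebra of the class -/

theorem sh2_val_zero {n : ℕ} (α β D : MvPolynomial (Fin n) ℝ) (u : Fin n → ℝ) :
    sh2_val 0 α β D u = MvPolynomial.eval u α + MvPolynomial.eval u β * Real.sqrt (MvPolynomial.eval u D) := by
  unfold sh2_val
  rw [pow_zero, div_one]

/-- polynomials are smooth (`MvPolynomial.induction_on`, or `MvPolynomial.eval_eq'` + `ContDiff.sum`, `ContDiff.prod`, `contDiff_apply`) -/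
theorem sh2_eval_contDiff {n : ℕ} (P : MvPolynomial (Fin n) ℝ) (N : WithTop ℕ∞) : ContDiff ℝ N fun u : Fin n → ℝ => MvPolynomial.eval u P := by
  induction P using MvPolynomial.induction_on with
  | C a => simp only [MvPolynomial.eval_C]; exact contDiff_const
  | add p q hp hq => simp only [map_add]; exact hp.add hq
  | mul_X p i hp => simp only [map_mul, MvPolynomial.eval_X]; exact hp.mul (contDiff_apply ℝ ℝ i)

theorem sh2_val_measurable {n : ℕ} (m : ℕ) (α β D : MvPolynomial (Fin n) ℝ) : Measurable (sh2_val m α β D) := by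
  have h : ∀ P : MvPolynomial (Fin n) ℝ, Measurable fun u : Fin n → ℝ => MvPolynomial.eval u P :=
    fun P => (sh2_eval_contDiff P 0).continuous.measurable
  unfold sh2_val
  exact (h α).add (((h β).mul (h D).sqrt).div ((h D).pow_const m))

theorem sh2_pos_isOpen {n : ℕ} (D : MvPolynomial (Fin n) ℝ) : IsOpen {u : Fin n → ℝ | 0 < MvPolynomial.eval u D} := by
  exact isOpen_lt continuous_const (sh2_eval_contDiff D 0).continuous

/-- (`Real.contDiffAt_sqrt`, `ContDiffAt.div`) -/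
theorem sh2_val_contDiffOn {n : ℕ} (m : ℕ) (α β D : MvPolynomial (Fin n) ℝ) (N : WithTop ℕ∞) :
    ContDiffOn ℝ N (sh2_val m α β D) {u : Fin n → ℝ | 0 < MvPolynomial.eval u D} := by
  intro u hu
  have hu' : 0 < MvPolynomial.eval u D := hu
  have hD : ContDiffAt ℝ N (fun u : Fin n → ℝ => MvPolynomial.eval u D) u := (sh2_eval_contDiff D N).contDiffAt
  have hα : ContDiffAt ℝ N (fun u : Fin n → ℝ => MvPolynomial.eval u α) u := (sh2_eval_contDiff α N).contDiffAt
  have hβ : ContDiffAt ℝ N (fun u : Fin n → ℝ => MvPolynomial.eval u β) u := (sh2_eval_contDiff β N).contDiffAt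
  exact (hα.add ((hβ.mul (hD.sqrt hu'.ne')).div (hD.pow m) (pow_ne_zero m hu'.ne'))).contDiffWithinAt

theorem sh2_stable_pos {n : ℕ} {kap : ℝ} (hkap : 1 ≤ kap) {D : MvPolynomial (Fin n) ℝ} {a b : Fin n → ℝ} (h : sh2Stable kap D a b) :
    Set.Icc a b ⊆ {u : Fin n → ℝ | 0 < MvPolynomial.eval u D} := by
  obtain ⟨D0, h0, h⟩ := h
  intro u hu
  exact lt_of_lt_of_le (div_pos h0 (by linarith)) (h u hu).1

theorem sh2_stable_mono {n : ℕ} {kap : ℝ} {D : MvPolynomial (Fin n) ℝ} {a b a' b' : Fin n → ℝ} (h : sh2Stable kap D a b)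
    (hsub : Set.Icc a' b' ⊆ Set.Icc a b) : sh2Stable kap D a' b' := by
  obtain ⟨D0, h0, h⟩ := h
  exact ⟨D0, h0, fun u hu => h u (hsub hu)⟩

/-- the usual form of the hypothesis: `|D - D0| ≤ D0/2` -/
theorem sh2_stable_of_half {n : ℕ} {D : MvPolynomial (Fin n) ℝ} {a b : Fin n → ℝ} (D0 : ℝ) (h0 : 0 < D0)
    (h : ∀ u ∈ Set.Icc a b, |MvPolynomial.eval u D - D0| ≤ D0 / 2) : sh2Stable 2 D a b := by
  refine ⟨D0, h0, fun u hu => ?_⟩
  have := abs_le.1 (h u hu)
  constructor <;> linarith [this.1, this.2]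

theorem sh2_val_sub {n : ℕ} (m : ℕ) (α L β D : MvPolynomial (Fin n) ℝ) (u : Fin n → ℝ) :
    sh2_val m (α - L) β D u = sh2_val m α β D u - MvPolynomial.eval u L := by
  unfold sh2_val
  rw [map_sub]
  ring

theorem sh2_val_add {n : ℕ} (m : ℕ) (α α' β β' D : MvPolynomial (Fin n) ℝ) (u : Fin n → ℝ) :
    sh2_val m (α + α') (β + β') D u = sh2_val m α β D u + sh2_val m α' β' D u := by
  unfold sh2_val
  rw [map_add, map_add]
  ring

theorem sh2_val_mul {n : ℕ} (m : ℕ) (P α β D : MvPolynomial (Fin n) ℝ) (u : Fin n → ℝ) :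
    sh2_val m (P * α) (P * β) D u = MvPolynomial.eval u P * sh2_val m α β D u := by
  unfold sh2_val
  rw [map_mul, map_mul]
  ring

theorem sh2_val_shift {n : ℕ} (m : ℕ) (α β D : MvPolynomial (Fin n) ℝ) (u : Fin n → ℝ) (hu : 0 < MvPolynomial.eval u D) :
    sh2_val (m + 1) α (β * D) D u = sh2_val m α β D u := by
  unfold sh2_val
  rw [map_mul]
  have := hu.ne'
  field_simp
  ring

/-! ## 2. Lines; the class is good; the Remez exits -/

/-- restriction to a line (`rmz_line` three times; `(x + s • v) i = x i + s * v i`) -/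
theorem sh2_val_line {n : ℕ} (m : ℕ) (α β D : MvPolynomial (Fin n) ℝ) (x v : Fin n → ℝ) : ∃ A B Dl : ℝ[X],
    A.natDegree ≤ α.totalDegree ∧ B.natDegree ≤ β.totalDegree ∧ Dl.natDegree ≤ D.totalDegree ∧
    (∀ s : ℝ, MvPolynomial.eval (x + s • v) D = Dl.eval s) ∧
    ∀ s : ℝ, sh2_val m α β D (x + s • v) = A.eval s + B.eval s * Real.sqrt (Dl.eval s) / Dl.eval s ^ m := by
  obtain ⟨A, hA, hA'⟩ := rmz_line n α x v
  obtain ⟨B, hB, hB'⟩ := rmz_line n β x v
  obtain ⟨Dl, hD, hD'⟩ := rmz_line n D x v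
  have e : ∀ s : ℝ, x + s • v = fun i => x i + s * v i := fun s => by
    funext i
    simp only [Pi.add_apply, Pi.smul_apply, smul_eq_mul]
  refine ⟨A, B, Dl, hA, hB, hD, fun s => by rw [e, hD'], fun s => ?_⟩
  unfold sh2_val
  rw [e, hA', hB', hD']

/-- **the class is good on every box where `D` is stable** (the constants of `sh2_sheet_good1 d q m`; `sh2_val_line`, `funext`) -/
theorem sh2_sheet_good (d q m : ℕ) : ∃ (k p : ℕ) (C : ℝ), 1 ≤ C ∧
    ∀ (n : ℕ) (kap : ℝ) (α β D : MvPolynomial (Fin n) ℝ) (a b : Fin n → ℝ), 1 ≤ kap → α.totalDegree ≤ d → β.totalDegree ≤ d → D.totalDegree ≤ d →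
      sh2Stable kap D a b → sh2Good k p q (C * kap ^ p) a b (sh2_val m α β D) := by
  obtain ⟨k, p, C, hC, h⟩ := sh2_sheet_good1 d q m
  refine ⟨k, p, C, hC, ?_⟩
  intro n kap α β D a b hkap hα hβ hD hst x v hseg
  obtain ⟨A, B, Dl, hA, hB, hDl, e1, e2⟩ := sh2_val_line m α β D x v
  obtain ⟨D0, h0, hst⟩ := hst
  have := h kap A B Dl D0 hkap (hA.trans hα) (hB.trans hβ) (hDl.trans hD) h0 (fun t ht => by rw [← e1 t]; exact hst _ (hseg t ht))
  have e3 : (fun s : ℝ => sh2_val m α β D (x + s • v)) = fun t : ℝ => A.eval t + B.eval t * Real.sqrt (Dl.eval t) / Dl.eval t ^ m := funext e2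
  rw [e3]
  exact this

/-- **EXIT (i): REMEZ FOR THE CLASS ON A BOX** (`sh2_sheet_good`, `sh2_exit`, `sh2_val_measurable`).   `E` is ANY subset of the box. -/
theorem sh2_remez (n d q m : ℕ) : ∃ (p : ℕ) (C : ℝ), 1 ≤ C ∧
    ∀ (kap : ℝ) (α β D : MvPolynomial (Fin n) ℝ) (a b : Fin n → ℝ) (θ M : ℝ) (E : Set (Fin n → ℝ)), 1 ≤ kap →
      α.totalDegree ≤ d → β.totalDegree ≤ d → D.totalDegree ≤ d → (∀ i, a i < b i) → sh2Stable kap D a b → 0 < θ → θ ≤ 1 → E ⊆ Set.Icc a b →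
      ENNReal.ofReal θ * volume (Set.Icc a b) ≤ volume E → (∀ x ∈ E, |sh2_val m α β D x| ≤ M) →
      sh2Bd q a b (sh2_val m α β D) (C * (kap / θ) ^ p * M) := by
  obtain ⟨k, p, C, hC, h⟩ := sh2_sheet_good d q m
  obtain ⟨p', C', hC', h'⟩ := sh2_exit n k p q C hC
  refine ⟨p', C', hC', ?_⟩
  intro kap α β D a b θ M E hkap hα hβ hD hab hst hθ hθ1 hE hvol hM
  exact h' kap a b _ θ M E hkap hab (sh2_val_measurable m α β D) (h n kap α β D a b hkap hα hβ hD hst) hθ hθ1 hE hvol hM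

/-- **EXIT (i'): one variable, interval `[t0 - r, t0 + r]`, derivatives up to the end points.**
PLAN: `sh2_sheet_good1 d q m` for `A.comp (C t0 + C r * X)`, ... (`natDegree_comp_le`, or `rmzAff (t0) (t0 + r)`: `rmz_aff_eval`, `rmz_aff_natDegree`), then `sh2_good1_interval`; `C kap^p ((k+1)/θ)^p = C (k+1)^p (kap/θ)^p`. -/
theorem sh2_interval (d q m : ℕ) : ∃ (p : ℕ) (C : ℝ), 1 ≤ C ∧
    ∀ (kap : ℝ) (A B Dl : ℝ[X]) (D0 t0 r θ M : ℝ) (E : Set ℝ), 1 ≤ kap → A.natDegree ≤ d → B.natDegree ≤ d → Dl.natDegree ≤ d → 0 < D0 → 0 < r →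
      (∀ t ∈ Set.Icc (t0 - r) (t0 + r), D0 / kap ≤ Dl.eval t ∧ Dl.eval t ≤ kap * D0) → 0 < θ → E ⊆ Set.Icc (t0 - r) (t0 + r) →
      ENNReal.ofReal (θ * (2 * r)) ≤ volume E → (∀ t ∈ E, |A.eval t + B.eval t * Real.sqrt (Dl.eval t) / Dl.eval t ^ m| ≤ M) →
      ∀ j ≤ q, ∀ t ∈ Set.Icc (t0 - r) (t0 + r),
        |iteratedDeriv j (fun t : ℝ => A.eval t + B.eval t * Real.sqrt (Dl.eval t) / Dl.eval t ^ m) t| ≤ C * (kap / θ) ^ p * M / r ^ j := by
  obtain ⟨k, p, C, hC, h⟩ := sh2_sheet_good1 d q m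
  have hk1 : (1 : ℝ) ≤ (k : ℝ) + 1 := by
    have : (0 : ℝ) ≤ (k : ℝ) := Nat.cast_nonneg k
    linarith
  have hkp : (1 : ℝ) ≤ ((k : ℝ) + 1) ^ p := one_le_pow₀ hk1
  refine ⟨p, C * ((k : ℝ) + 1) ^ p, by nlinarith, ?_⟩
  intro kap A B Dl D0 t0 r θ M E hkap hA hB hDl h0 hr hst hθ hE hvol hM j hj t ht
  have ev : ∀ (P : ℝ[X]) (s : ℝ), (rmzAff t0 (t0 + r) P).eval s = P.eval (t0 + r * s) := by
    intro P s
    rw [rmz_aff_eval, add_sub_cancel_left]
  have hg := h kap (rmzAff t0 (t0 + r) A) (rmzAff t0 (t0 + r) B) (rmzAff t0 (t0 + r) Dl) D0 hkap (rmz_aff_natDegree _ _ _ _ hA)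
    (rmz_aff_natDegree _ _ _ _ hB) (rmz_aff_natDegree _ _ _ _ hDl) h0 (fun s hs => by
      rw [ev]
      refine hst _ ⟨?_, ?_⟩
      · nlinarith [hs.1]
      · nlinarith [hs.2])
  simp only [ev] at hg
  have := sh2_good1_interval (fun t : ℝ => A.eval t + B.eval t * Real.sqrt (Dl.eval t) / Dl.eval t ^ m) t0 r hr hg θ M hθ E hE hvol hM j hj t ht
  refine this.trans (le_of_eq ?_)
  rw [div_pow, div_pow]
  ring

/-! ## 3. Distance to affine functions -/

/-- iterated derivatives of a polynomial function -/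
theorem sh2_iteratedDeriv_poly (p : ℝ[X]) (k : ℕ) :
    iteratedDeriv k (fun s : ℝ => p.eval s) = fun s : ℝ => (Polynomial.derivative^[k] p).eval s := by
  induction k generalizing p with
  | zero => simp
  | succ k ih =>
    have e : deriv (fun s : ℝ => p.eval s) = fun s : ℝ => (Polynomial.derivative p).eval s := by
      funext s
      exact p.deriv
    rw [iteratedDeriv_succ', Function.iterate_succ_apply, e, ih]

/-- the parametrisation of a line is smooth -/
theorem sh2_line_contDiffAt {n : ℕ} (x v : Fin n → ℝ) (N : WithTop ℕ∞) (t : ℝ) : ContDiffAt ℝ N (fun s : ℝ => x + s • v) t :=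
  contDiffAt_const.add (contDiffAt_id.smul contDiffAt_const)

/-- an affine function does not change the derivatives of order `≥ 2` along lines.
PLAN: `s ↦ eval (x + s • v) L` is `c0 + c1 s` (`rmz_line`, `natDegree ≤ 1`), its `iteratedDeriv j` vanishes for `j ≥ 2`; `s ↦ sh2_val m α β D (x + s • v)` is `ContDiffAt ℝ j` at `t` (`sh2_val_contDiffOn`, `sh2_pos_isOpen`, composition with the
affine map); `sh2_val_sub`, `iteratedDeriv_sub`-type lemma (`iteratedDeriv_fun_sub`/`iteratedDeriv_sub` with `ContDiffAt`). -/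
theorem sh2_affine_deriv {n : ℕ} (m : ℕ) (α L β D : MvPolynomial (Fin n) ℝ) (hL : L.totalDegree ≤ 1) (x v : Fin n → ℝ) (t : ℝ)
    (ht : 0 < MvPolynomial.eval (x + t • v) D) (j : ℕ) (hj : 2 ≤ j) :
    iteratedDeriv j (fun s : ℝ => sh2_val m (α - L) β D (x + s • v)) t = iteratedDeriv j (fun s : ℝ => sh2_val m α β D (x + s • v)) t := by
  obtain ⟨pl, hpl, hev⟩ := rmz_line n L x v
  have e : (fun s : ℝ => sh2_val m (α - L) β D (x + s • v))
      = (fun s : ℝ => sh2_val m α β D (x + s • v)) - fun s : ℝ => pl.eval s := by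
    funext s
    rw [sh2_val_sub, Pi.sub_apply, ← hev s]
    rfl
  have hc1 : ContDiffAt ℝ (j : WithTop ℕ∞) (fun s : ℝ => sh2_val m α β D (x + s • v)) t := by
    have h1 : ContDiffAt ℝ (j : WithTop ℕ∞) (sh2_val m α β D) (x + t • v) :=
      (sh2_val_contDiffOn m α β D (j : WithTop ℕ∞)).contDiffAt ((sh2_pos_isOpen D).mem_nhds ht)
    exact h1.comp t (sh2_line_contDiffAt x v _ t)
  have hc2 : ContDiffAt ℝ (j : WithTop ℕ∞) (fun s : ℝ => pl.eval s) t := by
    have h2 := (Polynomial.contDiff_aeval (𝕜 := ℝ) pl (j : WithTop ℕ∞)).contDiffAt (x := t)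
    simpa using h2
  rw [e, iteratedDeriv_sub hc1 hc2, sh2_iteratedDeriv_poly,
    Polynomial.iterate_derivative_eq_zero (lt_of_le_of_lt hpl (lt_of_le_of_lt hL (by omega)))]
  simp

/-- **EXIT (ii): derivatives of order `≥ 2` are bounded by the distance to any affine function on a set of relative measure `θ`** (`sh2_remez n d q m` for `α - L`; `totalDegree_sub`; `sh2_affine_deriv`) -/
theorem sh2_hessian_affine (n d q m : ℕ) (hd : 1 ≤ d) : ∃ (p : ℕ) (C : ℝ), 1 ≤ C ∧
    ∀ (kap : ℝ) (α L β D : MvPolynomial (Fin n) ℝ) (a b : Fin n → ℝ) (θ η : ℝ) (E : Set (Fin n → ℝ)), 1 ≤ kap →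
      α.totalDegree ≤ d → L.totalDegree ≤ 1 → β.totalDegree ≤ d → D.totalDegree ≤ d → (∀ i, a i < b i) → sh2Stable kap D a b → 0 < θ → θ ≤ 1 →
      E ⊆ Set.Icc a b → ENNReal.ofReal θ * volume (Set.Icc a b) ≤ volume E → (∀ x ∈ E, |sh2_val m α β D x - MvPolynomial.eval x L| ≤ η) →
      ∀ x ∈ sh2Box a b (1 / 2), ∀ (v : Fin n → ℝ) (lam : ℝ), 0 < lam → (∀ i, |v i| ≤ lam * ((b i - a i) / 2)) → ∀ j, 2 ≤ j → j ≤ q →
        |iteratedDeriv j (fun s : ℝ => sh2_val m α β D (x + s • v)) 0| ≤ C * (kap / θ) ^ p * η * lam ^ j := by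
  obtain ⟨p, C, hC, H⟩ := sh2_remez n d q m
  refine ⟨p, C, hC, ?_⟩
  intro kap α L β D a b θ η E hkap hα hL hβ hD hab hst hθ hθ1 hE hvol hη x hx v lam hlam hv j hj2 hjq
  have hαL : (α - L).totalDegree ≤ d := (MvPolynomial.totalDegree_sub _ _).trans (max_le hα (hL.trans hd))
  have hbd := H kap (α - L) β D a b θ η E hkap hαL hβ hD hab hst hθ hθ1 hE hvol
    (fun y hy => by rw [sh2_val_sub]; exact hη y hy)
  have h3 := hbd.2.2 x hx v lam hlam hv j hjq
  have hxbox : x ∈ Set.Icc a b := by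
    constructor
    · intro i
      have h1 := abs_le.1 (hx i)
      have h2 := hab i
      linarith [h1.1]
    · intro i
      have h1 := abs_le.1 (hx i)
      have h2 := hab i
      linarith [h1.2]
  have hpos : 0 < MvPolynomial.eval (x + (0 : ℝ) • v) D := by
    rw [zero_smul, add_zero]
    exact sh2_stable_pos hkap hst hxbox
  rw [sh2_affine_deriv m α L β D hL x v 0 hpos j hj2] at h3
  exact h3

/-! ## 4. Taylor -/

/-- the derivative of a `C²` function is differentiable -/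
theorem sh2_deriv_differentiableAt (h : ℝ → ℝ) (t : ℝ) (hh : ContDiffAt ℝ 2 h t) : DifferentiableAt ℝ (deriv h) t := by
  have h1 : ContDiffAt ℝ 1 (fderiv ℝ h) t := hh.fderiv_right (le_of_eq one_add_one_eq_two)
  have h2 : deriv h = fun x => fderiv ℝ h x 1 := by
    funext x
    simp
  rw [h2]
  exact (h1.differentiableAt one_ne_zero).clm_apply (differentiableAt_const _)

/-- one variable: `|h 1 - h 0 - h' 0| ≤ B` if `|h''| ≤ B` on `[0,1]` (mean value inequality twice: `g s = h s - h 0 - s h' 0`, `|g' s| = |h' s - h' 0| ≤ B s ≤ B`; `Convex.norm_image_sub_le_of_norm_deriv_le` / `image_norm_le_of_norm_deriv_right_le_deriv_boundary`) -/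
theorem sh2_taylor1 (h : ℝ → ℝ) (B : ℝ) (hh : ∀ t ∈ Set.Icc (0 : ℝ) 1, ContDiffAt ℝ 2 h t) (hB : ∀ t ∈ Set.Icc (0 : ℝ) 1, |iteratedDeriv 2 h t| ≤ B) :
    |h 1 - h 0 - deriv h 0| ≤ B := by
  have hconv : Convex ℝ (Set.Icc (0 : ℝ) 1) := convex_Icc 0 1
  have h0 : (0 : ℝ) ∈ Set.Icc (0 : ℝ) 1 := ⟨le_rfl, zero_le_one⟩
  have h1 : (1 : ℝ) ∈ Set.Icc (0 : ℝ) 1 := ⟨zero_le_one, le_rfl⟩
  have hB0 : 0 ≤ B := (abs_nonneg _).trans (hB 0 h0)
  have e2 : iteratedDeriv 2 h = deriv (deriv h) := by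
    rw [iteratedDeriv_succ, iteratedDeriv_one]
  have s1 : ∀ s ∈ Set.Icc (0 : ℝ) 1, ‖deriv h s - deriv h 0‖ ≤ B := by
    intro s hs
    have := hconv.norm_image_sub_le_of_norm_deriv_le (f := deriv h) (C := B)
      (fun x hx => sh2_deriv_differentiableAt h x (hh x hx))
      (fun x hx => by rw [← e2, Real.norm_eq_abs]; exact hB x hx) h0 hs
    refine this.trans ?_
    rw [sub_zero, Real.norm_eq_abs, abs_of_nonneg hs.1]
    exact mul_le_of_le_one_right hB0 hs.2
  have hd : ∀ s ∈ Set.Icc (0 : ℝ) 1, HasDerivAt (fun s : ℝ => h s - s * deriv h 0) (deriv h s - deriv h 0) s := by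
    intro s hs
    have a1 : HasDerivAt h (deriv h s) s := ((hh s hs).differentiableAt two_ne_zero).hasDerivAt
    have a2 : HasDerivAt (fun s : ℝ => s * deriv h 0) (1 * deriv h 0) s := (hasDerivAt_id s).mul_const _
    have a3 := a1.sub a2
    rw [one_mul] at a3
    exact a3
  have key := hconv.norm_image_sub_le_of_norm_deriv_le (f := fun s : ℝ => h s - s * deriv h 0) (C := B)
    (fun x hx => (hd x hx).differentiableAt) (fun x hx => by rw [(hd x hx).deriv]; exact s1 x hx) h0 h1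
  have e : (h 1 - 1 * deriv h 0) - (h 0 - 0 * deriv h 0) = h 1 - h 0 - deriv h 0 := by ring
  simp only [e, sub_zero, norm_one, mul_one, Real.norm_eq_abs] at key
  exact key

/-- **EXIT: first order Taylor formula along a segment of the box** (`sh2_taylor1` for `h s = F (x + s • v)`; `deriv h 0 = fderiv ℝ F x v`) -/
theorem sh2_taylor {n : ℕ} (a b : Fin n → ℝ) (F : (Fin n → ℝ) → ℝ) (U : Set (Fin n → ℝ)) (hU : IsOpen U) (hbox : Set.Icc a b ⊆ U) (hF : ContDiffOn ℝ 2 F U)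
    (B : ℝ) (h : sh2Bd 2 a b F B) (x v : Fin n → ℝ) (hseg : ∀ s ∈ Set.Icc (-1 : ℝ) 1, x + s • v ∈ Set.Icc a b) :
    |F (x + v) - F x - fderiv ℝ F x v| ≤ B := by
  have hc : ∀ t ∈ Set.Icc (0 : ℝ) 1, ContDiffAt ℝ 2 (fun s : ℝ => F (x + s • v)) t := by
    intro t ht
    have hm : x + t • v ∈ U := hbox (hseg t ⟨by linarith [ht.1], ht.2⟩)
    have h1 : ContDiffAt ℝ 2 F (x + t • v) := hF.contDiffAt (hU.mem_nhds hm)
    exact h1.comp t (sh2_line_contDiffAt x v _ t)
  have hb : ∀ t ∈ Set.Icc (0 : ℝ) 1, |iteratedDeriv 2 (fun s : ℝ => F (x + s • v)) t| ≤ B :=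
    fun t ht => h.2.1 x v hseg 2 le_rfl t ⟨by linarith [ht.1], ht.2⟩
  have key := sh2_taylor1 (fun s : ℝ => F (x + s • v)) B hc hb
  have ed : deriv (fun s : ℝ => F (x + s • v)) 0 = fderiv ℝ F x v := by
    have hx : x ∈ U := by
      have := hbox (hseg 0 ⟨by norm_num, by norm_num⟩)
      simpa using this
    have hFd : HasFDerivAt F (fderiv ℝ F x) (x + (0 : ℝ) • v) := by
      rw [zero_smul, add_zero]
      exact ((hF.contDiffAt (hU.mem_nhds hx)).differentiableAt two_ne_zero).hasFDerivAt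
    have hl : HasDerivAt (fun s : ℝ => x + s • v) v 0 := by
      have := ((hasDerivAt_id (0 : ℝ)).smul_const v).const_add x
      simpa using this
    exact (hFd.comp_hasDerivAt 0 hl).deriv
  rw [ed] at key
  simpa using key

end

end Claimed.Agent.R252
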