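import Claimed.Agent.R252.Sheet.MvContract
import Claimed.Agent.R252.Heis.HeisContract

/-!
# ROW 252, unit SHEET, file 4: HEISENBERG EXITS (07 l.1131-1293).   CONTRACT      (architect helper169; prefix `sh2_`)

PAPER-FREE.   `ℝ³ = Fin 3 → ℝ`, `𝒳 = ∂₀ - u₁ ∂₂`, `𝒵 = ∂₁ + u₀ ∂₂` (`hsb_X`, `hsb_Z` of `R252/Heis/HeisContract`).   Statements are frozen (defects: message to helper169).   Provers replace the `sorry`s IN PLACE.
The class `sh2_val m α β D = α + β D^(1/2-m)` is closed under `𝒳, 𝒵`:   `𝒳 (α + β D^(1/2-m)) = 𝒳α + [D 𝒳β + (1/2-m) β 𝒳D] D^(1/2-(m+1))` on `{D > 0}`, and `𝒳, 𝒵` do not raise the total degree of a polynomial.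
Hence `A = 𝒳²f`, `B = 𝒵²f`, `C = (𝒳𝒵+𝒵𝒳)f` of `f = sh2_val m α β D` are `sh2_val (m+2) ..` of degree `≤ 3 d`, `sh2_remez` bounds them with two derivatives from a set of relative measure `θ`, and `hsb_hessian_dir` bounds the Hessian of `f`.
EXITS: `sh2_heis_hessian`, `sh2_heis_affine`.
LEAVES: L-252-SH2-H1 (s1), H2 (s2), H3 (s3).
-/

set_option autoImplicit false

namespace Claimed.Agent.R252

open MeasureTheory

noncomputable section

/-! ## 1. The vector fields on polynomials -/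

/-- `𝒳` on polynomials -/
def sh2_pX (P : MvPolynomial (Fin 3) ℝ) : MvPolynomial (Fin 3) ℝ := MvPolynomial.pderiv 0 P - MvPolynomial.X 1 * MvPolynomial.pderiv 2 P

/-- `𝒵` on polynomials -/
def sh2_pZ (P : MvPolynomial (Fin 3) ℝ) : MvPolynomial (Fin 3) ℝ := MvPolynomial.pderiv 1 P + MvPolynomial.X 0 * MvPolynomial.pderiv 2 P

/-- the numerator of `𝒳 (β D^(1/2-m))` -/
def sh2_nX (m : ℕ) (β D : MvPolynomial (Fin 3) ℝ) : MvPolynomial (Fin 3) ℝ := D * sh2_pX β + MvPolynomial.C (1 / 2 - (m : ℝ)) * β * sh2_pX D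

/-- the numerator of `𝒵 (β D^(1/2-m))` -/
def sh2_nZ (m : ℕ) (β D : MvPolynomial (Fin 3) ℝ) : MvPolynomial (Fin 3) ℝ := D * sh2_pZ β + MvPolynomial.C (1 / 2 - (m : ℝ)) * β * sh2_pZ D

theorem sh2_hs_eqns_cite : True := by
  have := @sh2_pX.eq_1
  have := @sh2_pZ.eq_1
  have := @sh2_nX.eq_1
  have := @sh2_nZ.eq_1
  trivial

/-- `X j * pderiv i P` has total degree `≤` that of `P` (if `pderiv i P ≠ 0` then `totalDegree (pderiv i P) + 1 ≤ totalDegree P`: every monomial of `pderiv i P` is a monomial of `P` lowered by `single i 1`, cf. `rmz_pderiv_support`) -/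
theorem sh2_X_mul_pderiv_totalDegree (P : MvPolynomial (Fin 3) ℝ) (i j : Fin 3) :
    (MvPolynomial.X j * MvPolynomial.pderiv i P).totalDegree ≤ P.totalDegree := by
  classical
  unfold MvPolynomial.totalDegree
  refine Finset.sup_le fun m hm => ?_
  rw [MvPolynomial.support_X_mul, Finset.mem_map] at hm
  obtain ⟨m', hm', rfl⟩ := hm
  have h1 := rmz_pderiv_support P i m' hm'
  have h2 : ((m' + Finsupp.single i 1).sum fun _ e => e) ≤ P.support.sup fun s => s.sum fun _ e => e :=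
    Finset.le_sup (f := fun s : Fin 3 →₀ ℕ => s.sum fun _ e => e) h1
  refine le_trans (le_of_eq ?_) h2
  simp only [addLeftEmbedding_apply]
  rw [Finsupp.sum_add_index' (fun _ => rfl) (fun _ _ _ => rfl), Finsupp.sum_add_index' (fun _ => rfl) (fun _ _ _ => rfl),
    Finsupp.sum_single_index rfl, Finsupp.sum_single_index rfl, add_comm]

theorem sh2_pderiv_totalDegree (P : MvPolynomial (Fin 3) ℝ) (i : Fin 3) : (MvPolynomial.pderiv i P).totalDegree ≤ P.totalDegree := by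
  classical
  unfold MvPolynomial.totalDegree
  refine Finset.sup_le fun m hm => ?_
  have h1 := rmz_pderiv_support P i m hm
  have h2 : ((m + Finsupp.single i 1).sum fun _ e => e) ≤ P.support.sup fun s => s.sum fun _ e => e :=
    Finset.le_sup (f := fun s : Fin 3 →₀ ℕ => s.sum fun _ e => e) h1
  refine le_trans ?_ h2
  rw [Finsupp.sum_add_index' (fun _ => rfl) (fun _ _ _ => rfl)]
  exact Nat.le_add_right _ _

theorem sh2_pX_totalDegree (P : MvPolynomial (Fin 3) ℝ) : (sh2_pX P).totalDegree ≤ P.totalDegree := by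
  unfold sh2_pX
  exact (MvPolynomial.totalDegree_sub _ _).trans (max_le (sh2_pderiv_totalDegree P 0) (sh2_X_mul_pderiv_totalDegree P 2 1))

theorem sh2_pZ_totalDegree (P : MvPolynomial (Fin 3) ℝ) : (sh2_pZ P).totalDegree ≤ P.totalDegree := by
  unfold sh2_pZ
  exact (MvPolynomial.totalDegree_add _ _).trans (max_le (sh2_pderiv_totalDegree P 1) (sh2_X_mul_pderiv_totalDegree P 2 0))

theorem sh2_nX_totalDegree (m : ℕ) (β D : MvPolynomial (Fin 3) ℝ) : (sh2_nX m β D).totalDegree ≤ β.totalDegree + D.totalDegree := by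
  unfold sh2_nX
  refine (MvPolynomial.totalDegree_add _ _).trans (max_le ?_ ?_)
  · refine (MvPolynomial.totalDegree_mul _ _).trans ?_
    have := sh2_pX_totalDegree β
    omega
  · refine (MvPolynomial.totalDegree_mul _ _).trans ?_
    have h1 := sh2_pX_totalDegree D
    have h2 := MvPolynomial.totalDegree_mul (MvPolynomial.C (1 / 2 - (m : ℝ))) β
    rw [MvPolynomial.totalDegree_C] at h2
    omega

theorem sh2_nZ_totalDegree (m : ℕ) (β D : MvPolynomial (Fin 3) ℝ) : (sh2_nZ m β D).totalDegree ≤ β.totalDegree + D.totalDegree := by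
  unfold sh2_nZ
  refine (MvPolynomial.totalDegree_add _ _).trans (max_le ?_ ?_)
  · refine (MvPolynomial.totalDegree_mul _ _).trans ?_
    have := sh2_pZ_totalDegree β
    omega
  · refine (MvPolynomial.totalDegree_mul _ _).trans ?_
    have h1 := sh2_pZ_totalDegree D
    have h2 := MvPolynomial.totalDegree_mul (MvPolynomial.C (1 / 2 - (m : ℝ))) β
    rw [MvPolynomial.totalDegree_C] at h2
    omega

/-- the explicit Fréchet derivative of a polynomial function -/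
theorem sh2_eval_hasFDerivAt' (P : MvPolynomial (Fin 3) ℝ) (q : Fin 3 → ℝ) :
    HasFDerivAt (fun u : Fin 3 → ℝ => MvPolynomial.eval u P)
      (∑ i : Fin 3, MvPolynomial.eval q (MvPolynomial.pderiv i P) • (ContinuousLinearMap.proj i : (Fin 3 → ℝ) →L[ℝ] ℝ)) q := by
  induction P using MvPolynomial.induction_on with
  | C a =>
    simp only [MvPolynomial.eval_C, MvPolynomial.pderiv_C, map_zero, zero_smul, Finset.sum_const_zero]
    exact hasFDerivAt_const a q
  | add p p' hp hp' =>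
    have h := hp.add hp'
    simp only [map_add, add_smul, Finset.sum_add_distrib]
    exact h
  | mul_X p k hp =>
    have hk : HasFDerivAt (fun u : Fin 3 → ℝ => u k) (ContinuousLinearMap.proj k : (Fin 3 → ℝ) →L[ℝ] ℝ) q := hasFDerivAt_apply k q
    have h := hp.mul hk
    have e1 : (fun u : Fin 3 → ℝ => MvPolynomial.eval u (p * MvPolynomial.X k)) = fun u => MvPolynomial.eval u p * u k := by
      funext u
      simp
    rw [e1]
    refine h.congr_fderiv ?_
    ext w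
    simp only [add_apply, smul_apply, sum_apply,
      ContinuousLinearMap.proj_apply, smul_eq_mul, Derivation.leibniz, MvPolynomial.pderiv_X, map_add,
      MvPolynomial.eval_X, map_mul]
    simp only [Fin.sum_univ_three]
    fin_cases k <;> simp <;> ring

/-- the Fréchet derivative of a polynomial function (`MvPolynomial.induction_on`: constants, sums, products with a variable; `HasFDerivAt.mul`, `hasFDerivAt_apply`; `MvPolynomial.pderiv_X`, Leibniz rule `Derivation.leibniz`) -/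
theorem sh2_eval_hasFDerivAt (P : MvPolynomial (Fin 3) ℝ) (q : Fin 3 → ℝ) : ∃ L : (Fin 3 → ℝ) →L[ℝ] ℝ,
    HasFDerivAt (fun u : Fin 3 → ℝ => MvPolynomial.eval u P) L q ∧ ∀ w : Fin 3 → ℝ, L w = ∑ i, MvPolynomial.eval q (MvPolynomial.pderiv i P) * w i := by
  refine ⟨_, sh2_eval_hasFDerivAt' P q, fun w => ?_⟩
  simp only [sum_apply, smul_apply, ContinuousLinearMap.proj_apply, smul_eq_mul]

theorem sh2_hsb_X_poly (P : MvPolynomial (Fin 3) ℝ) (q : Fin 3 → ℝ) : hsb_X (fun u : Fin 3 → ℝ => MvPolynomial.eval u P) q = MvPolynomial.eval q (sh2_pX P) := by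
  obtain ⟨L, hL, hw⟩ := sh2_eval_hasFDerivAt P q
  unfold hsb_X hsb_D sh2_pX hsb_vX
  rw [hL.fderiv, hw, Fin.sum_univ_three]
  simp
  ring

theorem sh2_hsb_Z_poly (P : MvPolynomial (Fin 3) ℝ) (q : Fin 3 → ℝ) : hsb_Z (fun u : Fin 3 → ℝ => MvPolynomial.eval u P) q = MvPolynomial.eval q (sh2_pZ P) := by
  obtain ⟨L, hL, hw⟩ := sh2_eval_hasFDerivAt P q
  unfold hsb_Z hsb_D sh2_pZ hsb_vZ
  rw [hL.fderiv, hw, Fin.sum_univ_three]
  simp
  ring

/-! ## 2. The class is closed under `𝒳`, `𝒵` -/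

/-- the one variable profile `d ↦ √d / d^m` -/
theorem sh2_hsb_D_val_prof (m : ℕ) (d : ℝ) (hd : 0 < d) :
    HasDerivAt (fun x : ℝ => Real.sqrt x / x ^ m) ((1 / 2 - (m : ℝ)) * Real.sqrt d / d ^ (m + 1)) d := by
  have h := (Real.hasDerivAt_sqrt hd.ne').div (hasDerivAt_pow m d) (pow_ne_zero m hd.ne')
  refine h.congr_deriv ?_
  have hs : 0 < Real.sqrt d := Real.sqrt_pos.2 hd
  have e : d = Real.sqrt d * Real.sqrt d := (Real.mul_self_sqrt hd.le).symm
  generalize Real.sqrt d = s at hs e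
  subst e
  cases m with
  | zero => simp; field_simp
  | succ k =>
    simp only [Nat.add_sub_cancel]
    push_cast
    field_simp
    ring

/-- a general vector field on the class.   PLAN: with `a, b, δ` the polynomial functions, `δ q > 0`: `HasFDerivAt` of `u ↦ a u + b u * √(δ u) / δ u ^ m` by `HasFDerivAt.sqrt`, `.mul`, `.div`, `.pow`; apply to `V q`; then `field_simp`
with `√δ * √δ = δ` (`Real.mul_self_sqrt`).   Shortcut: prove `hsb_D V` is a derivation at `q` on differentiable functions (sum, product, quotient, `√`) and compute. -/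
theorem sh2_hsb_D_val (V : (Fin 3 → ℝ) → (Fin 3 → ℝ)) (m : ℕ) (α β D : MvPolynomial (Fin 3) ℝ) (q : Fin 3 → ℝ) (hq : 0 < MvPolynomial.eval q D) :
    hsb_D V (sh2_val m α β D) q = hsb_D V (fun u => MvPolynomial.eval u α) q +
      (MvPolynomial.eval q D * hsb_D V (fun u => MvPolynomial.eval u β) q + (1 / 2 - (m : ℝ)) * MvPolynomial.eval q β * hsb_D V (fun u => MvPolynomial.eval u D) q)
        * Real.sqrt (MvPolynomial.eval q D) / MvPolynomial.eval q D ^ (m + 1) := by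
  have hdiff : ∀ P : MvPolynomial (Fin 3) ℝ, HasFDerivAt (fun u : Fin 3 → ℝ => MvPolynomial.eval u P)
      (fderiv ℝ (fun u : Fin 3 → ℝ => MvPolynomial.eval u P) q) q := fun P =>
    ((sh2_eval_contDiff P 1).differentiable one_ne_zero q).hasFDerivAt
  have h1 := (sh2_hsb_D_val_prof m _ hq).comp_hasFDerivAt q (hdiff D)
  have h2 := (hdiff α).add ((hdiff β).mul h1)
  have e : sh2_val m α β D = (fun u : Fin 3 → ℝ => MvPolynomial.eval u α) +
      (fun u : Fin 3 → ℝ => MvPolynomial.eval u β) * ((fun x : ℝ => Real.sqrt x / x ^ m) ∘ fun u : Fin 3 → ℝ => MvPolynomial.eval u D) := by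
    funext u
    simp only [sh2_val, Pi.add_apply, Pi.mul_apply, Function.comp_apply, mul_div_assoc]
  unfold hsb_D
  rw [e, h2.fderiv]
  simp only [add_apply, smul_apply, smul_eq_mul, Function.comp_apply]
  have hne : MvPolynomial.eval q D ≠ 0 := hq.ne'
  rw [pow_succ]
  field_simp
  ring

theorem sh2_hsb_X_val (m : ℕ) (α β D : MvPolynomial (Fin 3) ℝ) (q : Fin 3 → ℝ) (hq : 0 < MvPolynomial.eval q D) :
    hsb_X (sh2_val m α β D) q = sh2_val (m + 1) (sh2_pX α) (sh2_nX m β D) D q := by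
  have h := sh2_hsb_D_val hsb_vX m α β D q hq
  have e : ∀ P : MvPolynomial (Fin 3) ℝ, hsb_D hsb_vX (fun u : Fin 3 → ℝ => MvPolynomial.eval u P) q = MvPolynomial.eval q (sh2_pX P) :=
    fun P => sh2_hsb_X_poly P q
  rw [e, e, e] at h
  unfold hsb_X
  rw [h]
  simp only [sh2_val, sh2_nX, map_add, map_mul, MvPolynomial.eval_C]

theorem sh2_hsb_Z_val (m : ℕ) (α β D : MvPolynomial (Fin 3) ℝ) (q : Fin 3 → ℝ) (hq : 0 < MvPolynomial.eval q D) :
    hsb_Z (sh2_val m α β D) q = sh2_val (m + 1) (sh2_pZ α) (sh2_nZ m β D) D q := by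
  have h := sh2_hsb_D_val hsb_vZ m α β D q hq
  have e : ∀ P : MvPolynomial (Fin 3) ℝ, hsb_D hsb_vZ (fun u : Fin 3 → ℝ => MvPolynomial.eval u P) q = MvPolynomial.eval q (sh2_pZ P) :=
    fun P => sh2_hsb_Z_poly P q
  rw [e, e, e] at h
  unfold hsb_Z
  rw [h]
  simp only [sh2_val, sh2_nZ, map_add, map_mul, MvPolynomial.eval_C]

/-- (`hsb_D_congr` on the open set `{D > 0}` (`sh2_pos_isOpen`), then `sh2_hsb_X_val` twice) -/
theorem sh2_hsb_A_val (m : ℕ) (α β D : MvPolynomial (Fin 3) ℝ) (q : Fin 3 → ℝ) (hq : 0 < MvPolynomial.eval q D) :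
    hsb_A (sh2_val m α β D) q = sh2_val (m + 2) (sh2_pX (sh2_pX α)) (sh2_nX (m + 1) (sh2_nX m β D) D) D q := by
  have h : Set.EqOn (hsb_X (sh2_val m α β D)) (sh2_val (m + 1) (sh2_pX α) (sh2_nX m β D) D) {u | 0 < MvPolynomial.eval u D} :=
    fun u hu => sh2_hsb_X_val m α β D u hu
  have h2 := hsb_D_congr (sh2_pos_isOpen D) hsb_vX h hq
  unfold hsb_A
  exact h2.trans (sh2_hsb_X_val (m + 1) _ _ D q hq)

theorem sh2_hsb_B_val (m : ℕ) (α β D : MvPolynomial (Fin 3) ℝ) (q : Fin 3 → ℝ) (hq : 0 < MvPolynomial.eval q D) :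
    hsb_B (sh2_val m α β D) q = sh2_val (m + 2) (sh2_pZ (sh2_pZ α)) (sh2_nZ (m + 1) (sh2_nZ m β D) D) D q := by
  have h : Set.EqOn (hsb_Z (sh2_val m α β D)) (sh2_val (m + 1) (sh2_pZ α) (sh2_nZ m β D) D) {u | 0 < MvPolynomial.eval u D} :=
    fun u hu => sh2_hsb_Z_val m α β D u hu
  have h2 := hsb_D_congr (sh2_pos_isOpen D) hsb_vZ h hq
  unfold hsb_B
  exact h2.trans (sh2_hsb_Z_val (m + 1) _ _ D q hq)

theorem sh2_hsb_C_val (m : ℕ) (α β D : MvPolynomial (Fin 3) ℝ) (q : Fin 3 → ℝ) (hq : 0 < MvPolynomial.eval q D) :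
    hsb_C (sh2_val m α β D) q = sh2_val (m + 2) (sh2_pX (sh2_pZ α) + sh2_pZ (sh2_pX α))
      (sh2_nX (m + 1) (sh2_nZ m β D) D + sh2_nZ (m + 1) (sh2_nX m β D) D) D q := by
  have hX : Set.EqOn (hsb_X (sh2_val m α β D)) (sh2_val (m + 1) (sh2_pX α) (sh2_nX m β D) D) {u | 0 < MvPolynomial.eval u D} :=
    fun u hu => sh2_hsb_X_val m α β D u hu
  have hZ : Set.EqOn (hsb_Z (sh2_val m α β D)) (sh2_val (m + 1) (sh2_pZ α) (sh2_nZ m β D) D) {u | 0 < MvPolynomial.eval u D} :=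
    fun u hu => sh2_hsb_Z_val m α β D u hu
  have h1 : hsb_X (hsb_Z (sh2_val m α β D)) q = _ :=
    (hsb_D_congr (sh2_pos_isOpen D) hsb_vX hZ hq).trans (sh2_hsb_X_val (m + 1) _ _ D q hq)
  have h2 : hsb_Z (hsb_X (sh2_val m α β D)) q = _ :=
    (hsb_D_congr (sh2_pos_isOpen D) hsb_vZ hX hq).trans (sh2_hsb_Z_val (m + 1) _ _ D q hq)
  unfold hsb_C
  rw [h1, h2, sh2_val_add]

/-! ## 3. The exits -/

/-- derivatives along lines of a function which coincides on an open set with a function bounded in the sense of `sh2Bd` -/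
theorem sh2_heis_line {U : Set (Fin 3 → ℝ)} (hU : IsOpen U) {F G : (Fin 3 → ℝ) → ℝ} (hFG : Set.EqOn F G U) (c : Fin 3 → ℝ) (r : ℝ) (hr : 0 < r) (hr1 : r ≤ 1)
    (B : ℝ) (hB : sh2Bd 2 (fun i => c i - r) (fun i => c i + r) G B) (q : Fin 3 → ℝ) (hqU : q ∈ U) (hq : ∀ i, |q i - c i| ≤ r / 2) :
    ∀ j ≤ 2, ∀ v : Fin 3 → ℝ, |iteratedDeriv j (fun s : ℝ => F (q + s • v)) 0| ≤ B / r ^ 2 * ‖v‖ ^ j := by
  intro j hj v
  have hev : (fun s : ℝ => F (q + s • v)) =ᶠ[nhds 0] fun s : ℝ => G (q + s • v) := by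
    have hcont : Continuous (fun s : ℝ => q + s • v) := by fun_prop
    have h0 : q + (0 : ℝ) • v ∈ U := by simpa using hqU
    filter_upwards [hcont.continuousAt.eventually_mem (hU.mem_nhds h0)] with s hs
    exact hFG hs
  rw [hev.iteratedDeriv_eq]
  have h1 := sh2_Bd_cube 2 c r hr G B hB q hq v j hj
  have hB0 : 0 ≤ B := by
    have h2 := sh2_Bd_cube 2 c r hr G B hB q hq v 0 (by norm_num)
    simp only [pow_zero, mul_one] at h2
    exact (abs_nonneg _).trans h2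
  refine h1.trans ?_
  rw [div_pow, div_mul_eq_mul_div, ← mul_div_assoc]
  have hrj : r ^ 2 ≤ r ^ j := pow_le_pow_of_le_one hr.le hr1 hj
  exact div_le_div_of_nonneg_left (by positivity) (by positivity) hrj

/-- **EXIT: the Hessian of a sheet from `𝒳²f, 𝒵²f, (𝒳𝒵+𝒵𝒳)f` on a set of relative measure `θ`** of a cube `|x i - c i| ≤ r ≤ 1` on which `D` is stable.
PLAN: `(p, C₀)` from `sh2_remez 3 (3 d) 2 (m + 2)`.   On the open set `U = {D > 0}` the functions `hsb_A f`, `hsb_B f`, `hsb_C f` coincide with members `G` of the class of degree `≤ 3 d` (s2, degrees from s1).   `sh2_remez` gives `sh2Bd 2 .. G B₀`,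
`B₀ = C₀ (kap/θ)^p E0`; `sh2_Bd_cube`: `|iteratedDeriv j (s ↦ G (q + s • v)) 0| ≤ B₀ (‖v‖/r)^j ≤ (B₀/r²) ‖v‖^j` (`j ≤ 2`, `r ≤ 1`); `s ↦ hsb_A f (q + s • v)` and `s ↦ G (q + s • v)` coincide near `s = 0`
(`Filter.EventuallyEq.iteratedDeriv_eq`; `U` is open).   `hsb_hessian_dir` with `E = B₀/r²`; `f` is `ContDiffOn ℝ 4` on `U` (`sh2_val_contDiffOn`).   `C = 200 C₀`. -/
theorem sh2_heis_hessian (d m : ℕ) : ∃ (p : ℕ) (C : ℝ), 1 ≤ C ∧
    ∀ (kap K : ℝ) (α β D : MvPolynomial (Fin 3) ℝ) (c : Fin 3 → ℝ) (r θ E0 : ℝ) (E : Set (Fin 3 → ℝ)), 1 ≤ kap → 1 ≤ K →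
      α.totalDegree ≤ d → β.totalDegree ≤ d → D.totalDegree ≤ d → 0 < r → r ≤ 1 → sh2Stable kap D (fun i => c i - r) (fun i => c i + r) → 0 < θ → θ ≤ 1 →
      E ⊆ Set.Icc (fun i => c i - r) (fun i => c i + r) → ENNReal.ofReal θ * volume (Set.Icc (fun i => c i - r) (fun i => c i + r)) ≤ volume E →
      (∀ x ∈ E, |hsb_A (sh2_val m α β D) x| ≤ E0 ∧ |hsb_B (sh2_val m α β D) x| ≤ E0 ∧ |hsb_C (sh2_val m α β D) x| ≤ E0) →
      ∀ q : Fin 3 → ℝ, (∀ i, |q i - c i| ≤ r / 2) → ‖q‖ ≤ K → ∀ u w : Fin 3 → ℝ,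
        |hsb_H (sh2_val m α β D) q u w| ≤ C * K ^ 4 * (kap / θ) ^ p * E0 / r ^ 2 * ‖u‖ * ‖w‖ := by
  obtain ⟨p, C₀, hC₀, H⟩ := sh2_remez 3 (3 * d) 2 (m + 2)
  refine ⟨p, 200 * C₀, by linarith, ?_⟩
  intro kap K α β D c r θ E0 E hkap hK hα hβ hD hr hr1 hst hθ hθ1 hE hvol hABC q hq hqK u w
  have hU : IsOpen {u : Fin 3 → ℝ | 0 < MvPolynomial.eval u D} := sh2_pos_isOpen D
  have hbox : Set.Icc (fun i => c i - r) (fun i => c i + r) ⊆ {u : Fin 3 → ℝ | 0 < MvPolynomial.eval u D} := sh2_stable_pos hkap hst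
  have hf : ContDiffOn ℝ 4 (sh2_val m α β D) {u : Fin 3 → ℝ | 0 < MvPolynomial.eval u D} := sh2_val_contDiffOn m α β D 4
  have hqU : q ∈ {u : Fin 3 → ℝ | 0 < MvPolynomial.eval u D} := by
    refine hbox ⟨fun i => ?_, fun i => ?_⟩
    · have := abs_le.1 (hq i)
      show c i - r ≤ q i
      linarith [this.1]
    · have := abs_le.1 (hq i)
      show q i ≤ c i + r
      linarith [this.2]
  have hab : ∀ i : Fin 3, (fun i => c i - r) i < (fun i => c i + r) i := fun i => by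
    show c i - r < c i + r
    linarith
  have hD3 : D.totalDegree ≤ 3 * d := by omega
  -- degrees
  have dXX : (sh2_pX (sh2_pX α)).totalDegree ≤ 3 * d := by
    have := (sh2_pX_totalDegree (sh2_pX α)).trans (sh2_pX_totalDegree α)
    omega
  have dZZ : (sh2_pZ (sh2_pZ α)).totalDegree ≤ 3 * d := by
    have := (sh2_pZ_totalDegree (sh2_pZ α)).trans (sh2_pZ_totalDegree α)
    omega
  have dXZ : (sh2_pX (sh2_pZ α)).totalDegree ≤ 3 * d := by
    have := (sh2_pX_totalDegree (sh2_pZ α)).trans (sh2_pZ_totalDegree α)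
    omega
  have dZX : (sh2_pZ (sh2_pX α)).totalDegree ≤ 3 * d := by
    have := (sh2_pZ_totalDegree (sh2_pX α)).trans (sh2_pX_totalDegree α)
    omega
  have nXX : (sh2_nX (m + 1) (sh2_nX m β D) D).totalDegree ≤ 3 * d := by
    have h1 := sh2_nX_totalDegree (m + 1) (sh2_nX m β D) D
    have h2 := sh2_nX_totalDegree m β D
    omega
  have nZZ : (sh2_nZ (m + 1) (sh2_nZ m β D) D).totalDegree ≤ 3 * d := by
    have h1 := sh2_nZ_totalDegree (m + 1) (sh2_nZ m β D) D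
    have h2 := sh2_nZ_totalDegree m β D
    omega
  have nXZ : (sh2_nX (m + 1) (sh2_nZ m β D) D).totalDegree ≤ 3 * d := by
    have h1 := sh2_nX_totalDegree (m + 1) (sh2_nZ m β D) D
    have h2 := sh2_nZ_totalDegree m β D
    omega
  have nZX : (sh2_nZ (m + 1) (sh2_nX m β D) D).totalDegree ≤ 3 * d := by
    have h1 := sh2_nZ_totalDegree (m + 1) (sh2_nX m β D) D
    have h2 := sh2_nX_totalDegree m β D
    omega
  have eA : Set.EqOn (hsb_A (sh2_val m α β D)) (sh2_val (m + 2) (sh2_pX (sh2_pX α)) (sh2_nX (m + 1) (sh2_nX m β D) D) D)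
      {u : Fin 3 → ℝ | 0 < MvPolynomial.eval u D} := fun x hx => sh2_hsb_A_val m α β D x hx
  have eB : Set.EqOn (hsb_B (sh2_val m α β D)) (sh2_val (m + 2) (sh2_pZ (sh2_pZ α)) (sh2_nZ (m + 1) (sh2_nZ m β D) D) D)
      {u : Fin 3 → ℝ | 0 < MvPolynomial.eval u D} := fun x hx => sh2_hsb_B_val m α β D x hx
  have eC : Set.EqOn (hsb_C (sh2_val m α β D)) (sh2_val (m + 2) (sh2_pX (sh2_pZ α) + sh2_pZ (sh2_pX α))
      (sh2_nX (m + 1) (sh2_nZ m β D) D + sh2_nZ (m + 1) (sh2_nX m β D) D) D)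
      {u : Fin 3 → ℝ | 0 < MvPolynomial.eval u D} := fun x hx => sh2_hsb_C_val m α β D x hx
  have bA := H kap _ _ D _ _ θ E0 E hkap dXX nXX hD3 hab hst hθ hθ1 hE hvol (fun x hx => by
    rw [← eA (hbox (hE hx))]; exact (hABC x hx).1)
  have bB := H kap _ _ D _ _ θ E0 E hkap dZZ nZZ hD3 hab hst hθ hθ1 hE hvol (fun x hx => by
    rw [← eB (hbox (hE hx))]; exact (hABC x hx).2.1)
  have bC := H kap _ _ D _ _ θ E0 E hkap ((MvPolynomial.totalDegree_add _ _).trans (max_le dXZ dZX))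
    ((MvPolynomial.totalDegree_add _ _).trans (max_le nXZ nZX)) hD3 hab hst hθ hθ1 hE hvol (fun x hx => by
    rw [← eC (hbox (hE hx))]; exact (hABC x hx).2.2)
  have key := hsb_hessian_dir hU hf hqU K (C₀ * (kap / θ) ^ p * E0 / r ^ 2) hK hqK
    (sh2_heis_line hU eA c r hr hr1 _ bA q hqU hq) (sh2_heis_line hU eB c r hr hr1 _ bB q hqU hq)
    (sh2_heis_line hU eC c r hr hr1 _ bC q hqU hq) u w
  refine key.trans (le_of_eq ?_)
  ring

/-- **EXIT: the sheet is close to its tangent plane at the centre** on the half cube.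
PLAN: `h s = f (c + s • (x - c))`; `iteratedDeriv 2 h s = hsb_H f (c + s • (x - c)) (x - c) (x - c)` (`hsb_H_line` at the point `c + s • (x - c)` + `iteratedDeriv_comp_const_add`), bounded by `sh2_heis_hessian` (the half cube is convex; `‖x - c‖ ≤ r/2`);
`sh2_taylor1`; `deriv h 0 = fderiv ℝ f c (x - c)`. -/
theorem sh2_heis_affine (d m : ℕ) : ∃ (p : ℕ) (C : ℝ), 1 ≤ C ∧
    ∀ (kap K : ℝ) (α β D : MvPolynomial (Fin 3) ℝ) (c : Fin 3 → ℝ) (r θ E0 : ℝ) (E : Set (Fin 3 → ℝ)), 1 ≤ kap → 1 ≤ K →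
      α.totalDegree ≤ d → β.totalDegree ≤ d → D.totalDegree ≤ d → 0 < r → r ≤ 1 → sh2Stable kap D (fun i => c i - r) (fun i => c i + r) → 0 < θ → θ ≤ 1 →
      E ⊆ Set.Icc (fun i => c i - r) (fun i => c i + r) → ENNReal.ofReal θ * volume (Set.Icc (fun i => c i - r) (fun i => c i + r)) ≤ volume E →
      (∀ x ∈ E, |hsb_A (sh2_val m α β D) x| ≤ E0 ∧ |hsb_B (sh2_val m α β D) x| ≤ E0 ∧ |hsb_C (sh2_val m α β D) x| ≤ E0) →
      (∀ q : Fin 3 → ℝ, (∀ i, |q i - c i| ≤ r / 2) → ‖q‖ ≤ K) →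
      ∀ x : Fin 3 → ℝ, (∀ i, |x i - c i| ≤ r / 2) →
        |sh2_val m α β D x - sh2_val m α β D c - fderiv ℝ (sh2_val m α β D) c (x - c)| ≤ C * K ^ 4 * (kap / θ) ^ p * E0 := by
  obtain ⟨p, C, hC, H⟩ := sh2_heis_hessian d m
  refine ⟨p, C, hC, ?_⟩
  intro kap K α β D c r θ E0 E hkap hK hα hβ hD hr hr1 hst hθ hθ1 hE hvol hABC hqK x hx
  have HH := H kap K α β D c r θ E0 E hkap hK hα hβ hD hr hr1 hst hθ hθ1 hE hvol hABC
  have hU : IsOpen {u : Fin 3 → ℝ | 0 < MvPolynomial.eval u D} := sh2_pos_isOpen D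
  have hbox : Set.Icc (fun i => c i - r) (fun i => c i + r) ⊆ {u : Fin 3 → ℝ | 0 < MvPolynomial.eval u D} := sh2_stable_pos hkap hst
  have hf : ContDiffOn ℝ 2 (sh2_val m α β D) {u : Fin 3 → ℝ | 0 < MvPolynomial.eval u D} := sh2_val_contDiffOn m α β D 2
  have hhalf : ∀ q : Fin 3 → ℝ, (∀ i, |q i - c i| ≤ r / 2) → q ∈ {u : Fin 3 → ℝ | 0 < MvPolynomial.eval u D} := by
    intro q hq
    refine hbox ⟨fun i => ?_, fun i => ?_⟩
    · have := abs_le.1 (hq i)
      show c i - r ≤ q i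
      linarith [this.1]
    · have := abs_le.1 (hq i)
      show q i ≤ c i + r
      linarith [this.2]
  have hseg : ∀ t ∈ Set.Icc (0 : ℝ) 1, ∀ i, |(c + t • (x - c)) i - c i| ≤ r / 2 := by
    intro t ht i
    have e : (c + t • (x - c)) i - c i = t * (x i - c i) := by simp
    rw [e, abs_mul, abs_of_nonneg ht.1]
    calc t * |x i - c i| ≤ 1 * |x i - c i| := mul_le_mul_of_nonneg_right ht.2 (abs_nonneg _)
      _ ≤ r / 2 := by rw [one_mul]; exact hx i
  have hv : ‖x - c‖ ≤ r / 2 := by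
    rw [pi_norm_le_iff_of_nonneg (by positivity)]
    intro i
    exact hx i
  -- the constant is nonnegative
  have hX0 : 0 ≤ C * K ^ 4 * (kap / θ) ^ p * E0 / r ^ 2 := by
    have hc : ∀ i, |c i - c i| ≤ r / 2 := fun i => by simp; positivity
    have h1 := HH c hc (hqK c hc) (fun _ => 1) (fun _ => 1)
    have h2 : ‖(fun _ => 1 : Fin 3 → ℝ)‖ = 1 := by
      simp [pi_norm_const]
    rw [h2, mul_one, mul_one] at h1
    exact (abs_nonneg _).trans h1
  have hline : ∀ s : ℝ, HasDerivAt (fun s : ℝ => c + s • (x - c)) (x - c) s := fun s => by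
    simpa using ((hasDerivAt_id s).smul_const (x - c)).const_add c
  have hT := sh2_taylor1 (fun s : ℝ => sh2_val m α β D (c + s • (x - c))) (C * K ^ 4 * (kap / θ) ^ p * E0) ?_ ?_
  · have e1 : deriv (fun s : ℝ => sh2_val m α β D (c + s • (x - c))) 0 = fderiv ℝ (sh2_val m α β D) c (x - c) := by
      have hc : c ∈ {u : Fin 3 → ℝ | 0 < MvPolynomial.eval u D} := hhalf c (fun i => by simp; positivity)
      have hdg : DifferentiableAt ℝ (sh2_val m α β D) (c + (0 : ℝ) • (x - c)) := by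
        simpa using ((hf.contDiffAt (hU.mem_nhds hc)).differentiableAt (by norm_num))
      have h3 : HasFDerivAt (sh2_val m α β D) (fderiv ℝ (sh2_val m α β D) (c + (0 : ℝ) • (x - c))) (c + (0 : ℝ) • (x - c)) := hdg.hasFDerivAt
      have h4 := (h3.comp_hasDerivAt (0 : ℝ) (hline 0)).deriv
      rw [zero_smul, add_zero] at h4
      exact h4
    rw [e1] at hT
    simpa using hT
  · intro t ht
    have hmem := hhalf _ (hseg t ht)
    have h1 : ContDiffAt ℝ 2 (sh2_val m α β D) (c + t • (x - c)) := hf.contDiffAt (hU.mem_nhds hmem)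
    have h2 : ContDiffAt ℝ 2 (fun s : ℝ => c + s • (x - c)) t := by fun_prop
    exact h1.comp t h2
  · intro t ht
    have hmem := hhalf _ (hseg t ht)
    have e2 : iteratedDeriv 2 (fun s : ℝ => sh2_val m α β D (c + s • (x - c))) t = hsb_H (sh2_val m α β D) (c + t • (x - c)) (x - c) (x - c) := by
      rw [hsb_H_line hU hf hmem (x - c)]
      have := iteratedDeriv_comp_const_add 2 (fun s : ℝ => sh2_val m α β D (c + s • (x - c))) t
      have e3 := congrFun this 0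
      simp only [add_zero] at e3
      rw [← e3]
      congr 1
      funext s
      rw [add_smul, add_assoc]
    rw [e2]
    refine (HH _ (hseg t ht) (hqK _ (hseg t ht)) (x - c) (x - c)).trans ?_
    have hn : 0 ≤ ‖x - c‖ := norm_nonneg _
    calc C * K ^ 4 * (kap / θ) ^ p * E0 / r ^ 2 * ‖x - c‖ * ‖x - c‖
        ≤ C * K ^ 4 * (kap / θ) ^ p * E0 / r ^ 2 * r * r := by
          have h3 : ‖x - c‖ ≤ r := by linarith
          gcongr
      _ = C * K ^ 4 * (kap / θ) ^ p * E0 := by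
          field_simp

end

end Claimed.Agent.R252
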