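import Claimed.Agent.R252.Remez.Free

/-!
# ROW 252, unit SHEET (BP-252-SHEET, BOX 5a): the sheet kit which replaces 03 L3.1 (Bernstein-Remez for algebraic sheets).   DEFINITIONS      (architect helper169; prefix `sh2`)

PAPER-FREE, REAL VARIABLE, ANY DEGREE (route of helper295's note, msg 25400).   On top of the polynomial kit of helper78 (`R252/Remez`).   Domain `Fin n → ℝ`, boxes `Set.Icc a b`.
ONE CLASS of functions on a box where the polynomial `D` is STABLE (`D0/κ ≤ D ≤ κ D0` on the REAL box itself: no enlargement, no complex margin):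
  `sh2_val m α β D = α + β √D / D^m = α + β D^(1/2-m)`,   `α, β, D` polynomials of ANY fixed degree `≤ d`.
`m = 0`: sheets `α + β √D` (roots of quadratic tests, their compositions with polynomial tests, potentials).   The class is closed under first order differential operators `V` with polynomial coefficients:
`V (α + β D^(1/2-m)) = V α + [D V β + (1/2-m) β V D] D^(1/2-(m+1))`   (`m = 2`: `𝒳²f`, `𝒵²f`, `(𝒳𝒵+𝒵𝒳)f` of a sheet `f`).
NO bound on the coefficients of `α, β` is ever used: all estimates are homogeneous (linear in the small quantity) and scale invariant.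
ONE ABSTRACT NOTION carries the several-variable analysis:   `sh2Good1 k p q C h` (one variable, normalised to `[-1,1]`: `|h| ≤ M` on a set of measure `≥ 2 θ` bounds the derivatives of order `≤ q` on `[-1,1]` by `C ((k+1)/θ)^p M`);
`sh2Good k p q C a b F`: `F` is good along all segments `x + s v`, `|s| ≤ 1`, which lie in the box.
Files: `OneContract` (the class is good in one variable, from the generic jet lemma `k6b_gm` of helper112, `R252/S6b/SqGen`), `Abs` (good functions: Remez in measure form on boxes, derivatives along lines), `Mv` (exits for the class), `Hs` (Heisenberg exits).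
-/

set_option autoImplicit false

namespace Claimed.Agent.R252

open Polynomial MeasureTheory

noncomputable section

/-- **good functions of one variable** (normalised; MEASURE form: `E` is ANY subset of `[-1,1]` of outer measure `≥ 2 θ`) -/
def sh2Good1 (k p q : ℕ) (C : ℝ) (h : ℝ → ℝ) : Prop :=
  ∀ (E : Set ℝ) (θ M : ℝ), 0 < θ → E ⊆ Set.Icc (-1 : ℝ) 1 → ENNReal.ofReal (2 * θ) ≤ volume E → (∀ t ∈ E, |h t| ≤ M) →
    ∀ j ≤ q, ∀ t ∈ Set.Icc (-1 : ℝ) 1, |iteratedDeriv j h t| ≤ C * (((k : ℝ) + 1) / θ) ^ p * M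

/-- the dilate of the box `Icc a b` by the factor `lam` about its centre -/
def sh2Box {n : ℕ} (a b : Fin n → ℝ) (lam : ℝ) : Set (Fin n → ℝ) := {x | ∀ i, |x i - (a i + b i) / 2| ≤ lam * ((b i - a i) / 2)}

/-- **good functions on a box** -/
def sh2Good {n : ℕ} (k p q : ℕ) (C : ℝ) (a b : Fin n → ℝ) (F : (Fin n → ℝ) → ℝ) : Prop :=
  ∀ x v : Fin n → ℝ, (∀ s ∈ Set.Icc (-1 : ℝ) 1, x + s • v ∈ Set.Icc a b) → sh2Good1 k p q C fun s : ℝ => F (x + s • v)

/-- **the class**: `α + β √D / D^m = α + β D^(1/2-m)` -/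
def sh2_val {n : ℕ} (m : ℕ) (α β D : MvPolynomial (Fin n) ℝ) (u : Fin n → ℝ) : ℝ :=
  MvPolynomial.eval u α + MvPolynomial.eval u β * Real.sqrt (MvPolynomial.eval u D) / MvPolynomial.eval u D ^ m

/-- the discriminant is stable on the box -/
def sh2Stable {n : ℕ} (kap : ℝ) (D : MvPolynomial (Fin n) ℝ) (a b : Fin n → ℝ) : Prop :=
  ∃ D0 : ℝ, 0 < D0 ∧ ∀ u ∈ Set.Icc a b, D0 / kap ≤ MvPolynomial.eval u D ∧ MvPolynomial.eval u D ≤ kap * D0

theorem sh2_defs_eqns_cite : True := by
  have := @sh2Good1.eq_1
  have := @sh2Box.eq_1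
  have := @sh2Good.eq_1
  have := @sh2_val.eq_1
  have := @sh2Stable.eq_1
  trivial

end

end Claimed.Agent.R252
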